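import Vale.Agent.P216R.Defs

/-!
# Necks, cuts and classes of manifolds closed under cutting

`S² × ℝ` is `E3 ∖ 0`; the round cylinder of scalar curvature `h⁻²` is `2 h² |x|⁻² |dx|²`.
-/

open scoped Manifold ContDiff Topology
open Set Metric Real

noncomputable section

namespace Vale.Agent.P216SG

open Vale.Agent.P216R

/-- open annulus -/
def ann (a b : ℝ) : Set E3 := {x | a < ‖x‖ ∧ ‖x‖ < b}

/-- the symmetric annulus of logarithmic half length `L` -/
def anl (L : ℝ) : Set E3 := ann (exp (-L)) (exp L)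

/-- inversion in the unit sphere -/
def inv (x : E3) : E3 := (‖x‖ ^ 2)⁻¹ • x

/-- the Euclidean metric -/
def euc : Bil E3 := innerSL ℝ

/-- the round cylinder with scalar curvature one -/
def cyl (x : E3) : Bil E3 := (2 / ‖x‖ ^ 2) • euc

/-- deviation of `G` from the round cylinder of scale `h` -/
def dev (h : ℝ) (G : E3 → Bil E3) (x : E3) : Bil E3 := (‖x‖ ^ 2 / h ^ 2) • G x - (2 : ℝ) • euc

/-- the scale invariant `C^k` norm of `F` on `S` is at most `δ` -/
def Sm (F : E3 → Bil E3) (S : Set E3) (k : ℕ) (δ : ℝ) : Prop :=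
  ∀ j ≤ k, ∀ x ∈ S, ‖x‖ ^ j * ‖iteratedFDeriv ℝ j F x‖ ≤ δ

variable {M : Type} [TopologicalSpace M] [ChartedSpace E3 M]
  {M' : Type} [TopologicalSpace M'] [ChartedSpace E3 M']

/-- `φ` is a smooth embedding of the open set `A` into `U` -/
structure Emb (φ : E3 → M) (A : Set E3) (U : Set M) : Prop where
  ld : LD E3 φ A
  inj : InjOn φ A
  mem : MapsTo φ A U

/-- `φ` parametrises a `δ`-neck of scale `h` in `(U, g)` -/
structure Neck (g : Ten E3 M) (U : Set M) (φ : E3 → M) (h δ : ℝ) : Prop where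
  hpos : 0 < h
  dpos : 0 < δ
  emb : Emb φ (anl δ⁻¹) U
  sm : Sm (dev h (comap φ g)) (anl δ⁻¹) ⌊δ⁻¹⌋₊ δ

/-- `x` lies on the central sphere of a `δ`-neck of scale `h` -/
def Cen (g : Ten E3 M) (U : Set M) (x : M) (h δ : ℝ) : Prop :=
  ∃ φ, Neck g U φ h δ ∧ x ∈ φ '' sphere 0 1

/-- `K` is the side of the sphere `φ (sphere 0 1)` in `U` that contains the outer half -/
structure Side (U : Set M) (φ : E3 → M) (L : ℝ) (K : Set M) : Prop where
  isOpen : IsOpen K
  sub : K ⊆ U
  mem : ∀ x ∈ anl L, φ x ∈ K ↔ 1 < ‖x‖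
  other : IsOpen (U \ (K ∪ φ '' sphere 0 1))

/-- `U'` is obtained from `K` by gluing the ball `ψ (ball 0 (exp L))` along the half neck -/
structure IsCut (U : Set M) (φ : E3 → M) (L : ℝ) (K : Set M) (U' : Set M') (i : M → M')
    (ψ : E3 → M') : Prop where
  ld : LD E3 i U
  inj : InjOn i U
  cap : Emb ψ (ball 0 (exp L)) U'
  eq : ∀ x ∈ ann 1 (exp L), ψ x = i (φ x)
  new : ∀ x ∈ closedBall (0 : E3) 1, ψ x ∉ i '' U
  cover : U' = i '' K ∪ ψ '' closedBall 0 1

/-- classes of three manifolds, given as open subsets -/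
abbrev Cls : Type 1 := ∀ (M : Type) [TopologicalSpace M] [ChartedSpace E3 M], Set M → Prop

/-- every embedded annulus separates, and one of the capped sides is again in the class -/
def CutClosed (C : Cls) : Prop :=
  ∀ (M : Type) [TopologicalSpace M] [ChartedSpace E3 M] [IsManifold 𝓘(ℝ, E3) ∞ M] (U : Set M)
    (φ : E3 → M) (L : ℝ), C M U → IsOpen U → IsCompact U → Hs U → IsPreconnected U → 0 < L →
    Emb φ (anl L) U → ∃ φ', (φ' = φ ∨ φ' = φ ∘ inv) ∧ ∃ K, Side U φ' L K ∧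
      ∀ (M' : Type) [TopologicalSpace M'] [ChartedSpace E3 M'] [IsManifold 𝓘(ℝ, E3) ∞ M']
        (U' : Set M') (i : M → M') (ψ : E3 → M'), IsCut U φ' L K U' i ψ → C M' U'

end Vale.Agent.P216SG
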