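import Vale.Agent.P216SG.Inv
import Vale.Agent.P216S.Srg
import Vale.Agent.P216B.Top

/-! # Necks: monotonicity, recentring, transport, limits, flipping -/

open scoped Manifold ContDiff Topology RealInnerProductSpace
open Set Metric Real Filter

set_option maxSynthPendingDepth 3

noncomputable section

namespace Vale.Agent.P216SG

open Vale.Agent.P216R Vale.Agent.P216S Vale.Agent.P216U

variable {F F' G : E3 → Bil E3} {S S' : Set E3} {k k' : ℕ} {c h h' δ ε L : ℝ} {x : E3}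

namespace Sm

lemma mono (H : Sm F S k δ) (hS : S' ⊆ S) (hk : k' ≤ k) (hδ : δ ≤ ε) : Sm F S' k' ε :=
  fun j hj x hx => (H j (hj.trans hk) x (hS hx)).trans hδ

lemma congr (H : Sm F S k δ) (hS : IsOpen S) (e : EqOn F' F S) : Sm F' S k δ := fun j hj x hx => by
  rw [((e.eventuallyEq_of_mem (hS.mem_nhds hx)).iteratedFDeriv ℝ j).eq_of_nhds]
  exact H j hj x hx

lemma norm_le (H : Sm F S k δ) (hx : x ∈ S) : ‖F x‖ ≤ δ := by simpa using H 0 k.zero_le x hx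

lemma dil (H : Sm F S k δ) (c : ℝ) : Sm (F ∘ dil c) (dil c ⁻¹' S) k δ := fun j hj x hx => by
  let e : E3 ≃L[ℝ] E3 := ContinuousLinearEquiv.smulLeft (Units.mk0 (exp c) (exp_pos c).ne')
  have h1 := e.iteratedFDerivWithin_comp_right F uniqueDiffOn_univ (mem_univ (e x)) j
  rw [preimage_univ, iteratedFDerivWithin_univ, iteratedFDerivWithin_univ] at h1
  have h2 : ‖(e : E3 →L[ℝ] E3)‖ ≤ exp c :=
    ContinuousLinearMap.opNorm_le_bound _ (exp_pos c).le fun v => (norm_dil c v).le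
  refine le_trans ?_ (H j hj _ hx)
  rw [norm_dil, mul_comm (exp c), mul_pow, mul_assoc]
  refine mul_le_mul_of_nonneg_left ?_ (by positivity)
  refine (h1 ▸ ContinuousMultilinearMap.norm_compContinuousLinearMap_le _ _ :
    ‖iteratedFDeriv ℝ j (F ∘ e) x‖ ≤ _).trans ?_
  rw [Finset.prod_const, Finset.card_univ, Fintype.card_fin, mul_comm]
  exact mul_le_mul_of_nonneg_right (pow_le_pow_left₀ (norm_nonneg _) h2 j) (norm_nonneg _)

/-- multiply by a constant and add a constant -/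
lemma affine (H : Sm F S k δ) (hS : IsOpen S) (hF : ContDiffOn ℝ ∞ F S) (c : ℝ) (B : Bil E3) :
    Sm (fun x => c • F x + B) S k (|c| * δ + ‖B‖) := fun j hj x hx => by
  have h1 : ContDiffAt ℝ j F x := (hF.contDiffAt (hS.mem_nhds hx)).of_le (by exact_mod_cast le_top)
  have h2 : ‖x‖ ^ j * ‖iteratedFDeriv ℝ j (fun _ : E3 => B) x‖ ≤ ‖B‖ := by
    rcases j with _ | j
    · simp
    · simp [iteratedFDeriv_succ_const]
  rw [fun_iteratedFDeriv_add_apply (h1.const_smul c) contDiffAt_const,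
    iteratedFDeriv_const_smul_apply' h1]
  refine (mul_le_mul_of_nonneg_left (norm_add_le _ _) (by positivity)).trans ?_
  rw [mul_add, norm_smul, mul_left_comm]
  exact add_le_add (mul_le_mul_of_nonneg_left (H j hj x hx) (abs_nonneg c)) h2

/-- smallness is an open condition for smooth convergence -/
lemma ev {ι : Type} {l : Ultrafilter ι} {f : ι → E3 → Bil E3} (hc : Cv l S f F) (hS : IsOpen S)
    {K : Set E3} (hK : IsCompact K) (hKS : K ⊆ S) (H : Sm F K k δ) (hδ : δ < ε) :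
    ∀ᶠ n in l, Sm (f n) K k ε := by
  obtain ⟨R, hR, h1⟩ := hK.isBounded.subset_closedBall_lt 1 0
  have : ∀ᶠ n in l, ∀ j ∈ Iic k, ∀ y ∈ K, ‖iteratedFDerivWithin ℝ j (f n) S y -
      iteratedFDerivWithin ℝ j F S y‖ < (ε - δ) / R ^ j :=
    (eventually_all_finite (finite_Iic k)).2 fun j _ => hc.unif (.of_isOpen hS) hK hKS j
      (div_pos (sub_pos.2 hδ) (by positivity))
  filter_upwards [this] with n hn j hj y hy
  have h2 := hn j hj y hy
  rw [iteratedFDerivWithin_of_isOpen j hS (hKS hy), iteratedFDerivWithin_of_isOpen j hS (hKS hy),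
    lt_div_iff₀' (by positivity)] at h2
  have h3 := mul_le_mul_of_nonneg_right (pow_le_pow_left₀ (norm_nonneg y)
    (mem_closedBall_zero_iff.1 (h1 hy)) j) (norm_nonneg
      (iteratedFDeriv ℝ j (f n) y - iteratedFDeriv ℝ j F y))
  have h4 := mul_le_mul_of_nonneg_left (norm_le_norm_add_norm_sub'
    (iteratedFDeriv ℝ j (f n) y) (iteratedFDeriv ℝ j F y)) (pow_nonneg (norm_nonneg y) j)
  linarith [H j hj y hy]

end Sm

lemma sm_zero (hδ : 0 ≤ δ) : Sm 0 S k δ := fun j _ x _ => by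
  simpa [iteratedFDeriv_zero] using hδ

lemma dev_dil (h c : ℝ) (G : E3 → Bil E3) : dev h (comap (dil c) G) = dev h G ∘ dil c := by
  ext1 x
  simp only [dev, comap_dil, Function.comp, norm_dil, smul_smul]
  congr 2; ring

lemma dev_congr (e : G x = F x) : dev h G x = dev h F x := by rw [dev, dev, e]

lemma dev_smul (hc : c ≠ 0) (h : ℝ) (G : E3 → Bil E3) : dev (c * h) (c ^ 2 • G) = dev h G := by
  ext1 x
  simp only [dev, Pi.smul_apply, smul_smul]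
  congr 2; rw [mul_pow, div_mul_eq_mul_div, mul_comm, mul_div_mul_left _ _ (pow_ne_zero 2 hc)]

lemma dev_resc (hh : h ≠ 0) (h' : ℝ) (G : E3 → Bil E3) : dev h' G =
    fun x => (h ^ 2 / h' ^ 2) • dev h G x + (2 * (h ^ 2 / h' ^ 2 - 1)) • euc := by
  ext x v w
  simp only [dev, add_apply, sub_apply, smul_apply, smul_eq_mul]
  field_simp; ring

lemma dev_cyl (hx : x ≠ 0) : dev 1 cyl x = 0 := by
  have := norm_ne_zero_iff.2 hx
  rw [dev, cyl, smul_smul, sub_eq_zero]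
  congr 1; field_simp

lemma cv_dev' {ι : Type} {l : Filter ι} {f : ι → E3 → Bil E3} (hS : IsOpen S) (hc : Cv l S f G)
    (h : ℝ) : Cv l S (fun n => dev h (f n)) (dev h G) :=
  cv_sub (.of_isOpen hS) (cv_smul (.of_isOpen hS)
    (.const hS.uniqueDiffOn (nq_cd.div_const _).contDiffOn) hc) (cv_c (.of_isOpen hS) _)

lemma cv_comap {ι : Type} {l : Filter ι} {f : ι → E3 → Bil E3} {τ : E3 → E3} (hS : IsOpen S)
    (hS' : IsOpen S') (hc : Cv l S f G) (hτ : ContDiffOn ℝ ∞ τ S') (hm : MapsTo τ S' S) :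
    Cv l S' (fun n => comap τ (f n)) (comap τ G) := by
  have h1 : Cv l S' (fun _ => fderiv ℝ τ) (fderiv ℝ τ) :=
    .const hS'.uniqueDiffOn (hτ.fderiv_of_isOpen hS' (by simp))
  have N := Nice.of_isOpen hS'
  have := cv_flip N (cv_comp N (cv_flip N (cv_comp N
    (hc.comp N hS (.const hS'.uniqueDiffOn hτ) hm) h1)) h1)
  convert this using 2 <;> · ext; simp [comap_model]

lemma floor_mono (hδ : 0 < δ) (h : δ ≤ ε) : ⌊ε⁻¹⌋₊ ≤ ⌊δ⁻¹⌋₊ := Nat.floor_mono (inv_anti₀ hδ h)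

lemma anl_sub_cann : anl L ⊆ cann (exp (-L)) (exp L) := fun _ h => ⟨h.1.le, h.2.le⟩

lemma cann_sub_anl {L' : ℝ} (h : L < L') : cann (exp (-L)) (exp L) ⊆ anl L' :=
  cann_sub_lan (neg_lt_neg h) h

lemma cann_ne : cann (exp (-L)) (exp L) ⊆ {0}ᶜ := fun _ h =>
  norm_pos_iff.1 ((exp_pos _).trans_le h.1)

variable {M : Type} [TopologicalSpace M] [ChartedSpace E3 M]
  {M' : Type} [TopologicalSpace M'] [ChartedSpace E3 M']
  {g g' : Ten E3 M} {U V : Set M} {U' : Set M'} {φ : E3 → M} {p : M} {i : M → M'}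

lemma Emb.comap_comp {A B : Set E3} (H : Emb φ A U) {τ : E3 → E3} (k : Emb τ B A) (g : Ten E3 M) :
    EqOn (comap (φ ∘ τ) g) (comap τ (comap φ g)) B := fun _ hx =>
  (P216R.comap_comp g (H.ld.md (k.mem hx)) (k.ld.md hx)).symm

namespace Neck

lemma inv_pos (H : Neck g U φ h δ) : 0 < δ⁻¹ := _root_.inv_pos.2 H.dpos

lemma mono (H : Neck g U φ h δ) (hδ : δ ≤ ε) : Neck g U φ h ε :=
  have h1 := anl_mono (inv_anti₀ H.dpos hδ)
  ⟨H.hpos, H.dpos.trans_le hδ, H.emb.mono isOpen_anl h1, H.sm.mono h1 (floor_mono H.dpos hδ) hδ⟩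

lemma of_mem (H : Neck g U φ h δ) (hV : MapsTo φ (anl δ⁻¹) V) : Neck g V φ h δ :=
  ⟨H.hpos, H.dpos, H.emb.of_mem hV, H.sm⟩

lemma congr (H : Neck g U φ h δ) (e : ∀ x ∈ anl δ⁻¹, g' (φ x) = g (φ x)) : Neck g' U φ h δ :=
  ⟨H.hpos, H.dpos, H.emb, H.sm.congr isOpen_anl fun x hx => dev_congr (comap_congr_right φ (e x hx))⟩

lemma congr_map (H : Neck g U φ h δ) {φ' : E3 → M} (e : EqOn φ' φ (anl δ⁻¹)) : Neck g U φ' h δ :=
  ⟨H.hpos, H.dpos, ⟨H.emb.ld.congr e, H.emb.inj.congr e.symm, H.emb.mem.congr e.symm⟩,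
    H.sm.congr isOpen_anl fun _ hx =>
      dev_congr (comap_congr g (e.eventuallyEq_of_mem (isOpen_anl.mem_nhds hx)))⟩

lemma smul (H : Neck g U φ h δ) (hc : 0 < c) : Neck (c ^ 2 • g) U φ (c * h) δ :=
  ⟨mul_pos hc H.hpos, H.dpos, H.emb, by rw [comap_smul, dev_smul hc.ne']; exact H.sm⟩

lemma unit (H : Neck g U φ h δ) : Neck ((h ^ 2)⁻¹ • g) U φ 1 δ := by
  simpa [inv_mul_cancel₀ H.hpos.ne'] using H.smul (_root_.inv_pos.2 H.hpos)

/-- push forward along a local isometry -/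
lemma map {k : Ten E3 M'} (H : Neck (comap i k) U φ h δ) (hi : LD E3 i U) (hi' : InjOn i U)
    (hm : MapsTo i U U') : Neck k U' (i ∘ φ) h δ :=
  ⟨H.hpos, H.dpos, H.emb.map hi hi' hm, H.sm.congr isOpen_anl fun _ hx =>
    dev_congr (P216R.comap_comp k (hi.md (H.emb.mem hx)) (H.emb.ld.md hx)).symm⟩

/-- recentring -/
lemma dil (H : Neck g U φ h δ) (hε : 0 < ε) (hc : |c| + ε⁻¹ ≤ δ⁻¹) : Neck g U (φ ∘ dil c) h ε := by
  have h1 : δ ≤ ε := (inv_le_inv₀ hε H.dpos).1 (by linarith [abs_nonneg c])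
  have h2 := emb_dil isOpen_anl (dil_mem_anl hc)
  refine ⟨H.hpos, hε, H.emb.comp h2, (((H.sm.dil c).mono h2.mem (floor_mono H.dpos h1) h1).congr
    isOpen_anl fun x hx => ?_)⟩
  rw [← dev_dil]
  exact dev_congr (H.emb.comap_comp h2 g hx)

lemma cen (H : Neck g U φ h δ) (hε : 0 < ε) (hx : x ≠ 0) (hc : |lv x| + ε⁻¹ ≤ δ⁻¹) :
    Cen g U (φ x) h ε := by
  obtain ⟨u, hu, e⟩ := exists_dil hx
  exact ⟨_, H.dil hε hc, u, hu, congrArg φ e⟩

lemma abs_le (H : Neck g U φ h δ) (hx : x ∈ anl δ⁻¹) (v : E3) :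
    |‖x‖ ^ 2 * comap φ g x v v - 2 * h ^ 2 * ‖v‖ ^ 2| ≤ δ * h ^ 2 * ‖v‖ ^ 2 := by
  have h1 := ((dev h (comap φ g) x).le_opNorm₂ v v).trans
    (mul_le_mul_of_nonneg_right (mul_le_mul_of_nonneg_right (H.sm.norm_le hx) (norm_nonneg _))
      (norm_nonneg _))
  have h2 := pow_pos H.hpos 2
  have h3 := H.hpos.ne'
  rw [dev_apply, real_inner_self_eq_norm_sq, norm_eq_abs] at h1
  rw [show ‖x‖ ^ 2 * comap φ g x v v - 2 * h ^ 2 * ‖v‖ ^ 2 =
    h ^ 2 * (‖x‖ ^ 2 / h ^ 2 * comap φ g x v v - 2 * ‖v‖ ^ 2) by field_simp, abs_mul, abs_of_pos h2]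
  nlinarith

lemma tb' (H : Neck g U φ h δ) {lo hi : ℝ} (h0 : 0 < lo) (h1 : lo ≤ hi) (h2 : lo ^ 2 + δ ≤ 2)
    (h3 : 2 + δ ≤ hi ^ 2) : Tb g U φ (lan (-δ⁻¹) δ⁻¹) (lo * h) (hi * h) := by
  have h4 := H.hpos
  refine ⟨by positivity, by gcongr, H.emb, fun x hx v => ?_, fun x hx v => ?_⟩
  · nlinarith [(_root_.abs_le.1 (H.abs_le hx v)).1, mul_nonneg (sq_nonneg h) (sq_nonneg ‖v‖)]
  · nlinarith [(_root_.abs_le.1 (H.abs_le hx v)).2, mul_nonneg (sq_nonneg h) (sq_nonneg ‖v‖)]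

lemma tb (H : Neck g U φ h δ) (hδ : δ ≤ 1 / 25) :
    Tb g U φ (lan (-δ⁻¹) δ⁻¹) (7 / 5 * h) (3 / 2 * h) :=
  H.tb' (by norm_num) (by norm_num) (by linarith) (by linarith)

variable [IsManifold 𝓘(ℝ, E3) ∞ M] [IsManifold 𝓘(ℝ, E3) ∞ M']

/-- pull back along a local isometry -/
lemma pull {k : Ten E3 M'} {ψ : E3 → M'} (H : Neck k U' ψ h δ) [Nonempty M] (hi : LD E3 i U)
    (hi' : InjOn i U) (hm : MapsTo ψ (anl δ⁻¹) (i '' U)) :
    Neck (comap i k) U (Function.invFunOn i U ∘ ψ) h δ := by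
  have h1 := hi.inverse hi'
  have h2 : ∀ y ∈ i '' U, i (Function.invFunOn i U y) = y := fun y hy => Function.invFunOn_eq hy
  refine ((H.of_mem hm).congr (g' := comap (Function.invFunOn i U) (comap i k)) fun x hx => ?_).map
    h1 (fun y hy z hz e => by rw [← h2 y hy, e, h2 z hz]) fun y hy => Function.invFunOn_mem hy
  have e : i ∘ Function.invFunOn i U =ᶠ[𝓝 (ψ x)] id := (h1.isOpen.eventually_mem (hm hx)).mono h2
  rw [P216R.comap_comp k (hi.md (Function.invFunOn_mem (hm hx))) (h1.md (hm hx)),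
    comap_congr k e, P216R.comap_id]

/-- change of the scale -/
lemma resc (H : Neck g U φ h δ) (hg : Met g U) (hh : 0 < h') (h1 : δ ≤ ε)
    (h2 : h ^ 2 / h' ^ 2 * δ + 2 * |h ^ 2 / h' ^ 2 - 1| ≤ ε) : Neck g U φ h' ε := by
  refine ⟨hh, H.dpos.trans_le h1, (H.mono h1).emb, ?_⟩
  rw [dev_resc H.hpos.ne']
  refine (H.sm.affine isOpen_anl (nk_of_neck hg H).dev_cd _ _).mono
    (anl_mono (inv_anti₀ H.dpos h1)) (floor_mono H.dpos h1) (le_trans ?_ h2)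
  rw [abs_of_nonneg (by positivity), norm_smul, norm_mul, norm_eq_abs, norm_eq_abs, abs_two]
  exact add_le_add_right (mul_le_of_le_one_right (by positivity) norm_euc_le) _

lemma cpt (H : Neck g U φ h δ) (hδ : δ ≤ 1 / 25) (hg : Met g U) (hs : Hs U) (hx : x ≠ 0) {d : ℝ}
    (hd : 0 < d) (hc : |lv x| + d < δ⁻¹) : Cpt g U (φ x) (7 / 5 * h * d) := by
  have h1 := neg_abs_le (lv x)
  have h2 := le_abs_self (lv x)
  have h3 := cann_sub_lan (show -δ⁻¹ < lv x - d by linarith) (show lv x + d < δ⁻¹ by linarith)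
  refine hg.cpt (H.emb.isCompact isCompact_cann h3) (H.emb.image_sub h3)
    (by have := H.hpos; positivity) (((H.tb hδ).bl_sub hs (mem_lan.2 ⟨hx, by linarith, by linarith⟩)
      (by linarith) (by linarith)).trans (image_mono fun _ k => ⟨k.1.le, k.2.le⟩))

end Neck

namespace Cen

lemma mono (H : Cen g U p h δ) (hδ : δ ≤ ε) : Cen g U p h ε :=
  let ⟨φ, h1, h2⟩ := H; ⟨φ, h1.mono hδ, h2⟩

lemma mem (H : Cen g U p h δ) : p ∈ U :=
  let ⟨_, h1, h2⟩ := H; h1.emb.image_sub (sphere_sub_anl h1.inv_pos) h2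

lemma hpos (H : Cen g U p h δ) : 0 < h := let ⟨_, h1, _⟩ := H; h1.hpos

lemma smul (H : Cen g U p h δ) (hc : 0 < c) : Cen (c ^ 2 • g) U p (c * h) δ :=
  let ⟨φ, h1, h2⟩ := H; ⟨φ, h1.smul hc, h2⟩

lemma of_sub (H : Cen g U p h δ) (hV : U ⊆ V) : Cen g V p h δ :=
  let ⟨φ, h1, h2⟩ := H; ⟨φ, h1.of_mem (h1.emb.mem.mono_right hV), h2⟩

lemma congr (H : Cen g U p h δ) (e : EqOn g' g U) : Cen g' U p h δ :=
  let ⟨φ, h1, h2⟩ := H; ⟨φ, h1.congr fun _ hx => e (h1.emb.mem hx), h2⟩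

lemma map {k : Ten E3 M'} (H : Cen (comap i k) U p h δ) (hi : LD E3 i U) (hi' : InjOn i U)
    (hm : MapsTo i U U') : Cen k U' (i p) h δ :=
  let ⟨_, h1, x, h2, h3⟩ := H; ⟨_, h1.map hi hi' hm, x, h2, congrArg i h3⟩

lemma resc [IsManifold 𝓘(ℝ, E3) ∞ M] (H : Cen g U p h δ) (hg : Met g U) (hh : 0 < h') (h1 : δ ≤ ε)
    (h2 : h ^ 2 / h' ^ 2 * δ + 2 * |h ^ 2 / h' ^ 2 - 1| ≤ ε) : Cen g U p h' ε :=
  let ⟨φ, k1, k2⟩ := H; ⟨φ, k1.resc hg hh h1 h2, k2⟩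

end Cen

section lim
variable {ι : Type} {l : Ultrafilter ι} {N : ι → Type} [∀ n, TopologicalSpace (N n)]
  [∀ n, ChartedSpace E3 (N n)] {k : ∀ n, Ten E3 (N n)} {W : ∀ n, Set (N n)} {ψ : ∀ n, E3 → N n}

/-- being a neck is an open condition -/
theorem neck_ev (hh : 0 < h) (hε : 0 < ε) (hS : IsOpen S) (hs : cann (exp (-ε⁻¹)) (exp ε⁻¹) ⊆ S)
    (he : ∀ᶠ n in l, Emb (ψ n) (anl ε⁻¹) (W n)) (hc : Cv l S (fun n => comap (ψ n) (k n)) G)
    (hG : Sm (dev h G) (cann (exp (-ε⁻¹)) (exp ε⁻¹)) ⌊ε⁻¹⌋₊ δ) (hδ : δ < ε) :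
    ∀ᶠ n in l, Neck (k n) (W n) (ψ n) h ε := by
  filter_upwards [he, Sm.ev (cv_dev' hS hc h) hS isCompact_cann hs hG hδ] with n h1 h2
  exact ⟨hh, hε, h1, h2.mono anl_sub_cann le_rfl le_rfl⟩

/-- limits that are necks of better quality -/
theorem Neck.ev (H : Neck g U φ h δ) (hδ : δ < ε) (he : ∀ᶠ n in l, Emb (ψ n) (anl ε⁻¹) (W n))
    (hc : Cv l (anl δ⁻¹) (fun n => comap (ψ n) (k n)) (comap φ g)) :
    ∀ᶠ n in l, Neck (k n) (W n) (ψ n) h ε :=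
  have h1 := cann_sub_anl (inv_strictAnti₀ H.dpos hδ)
  neck_ev H.hpos (H.dpos.trans hδ) isOpen_anl h1 he hc
    (H.sm.mono h1 (floor_mono H.dpos hδ.le) le_rfl) hδ

lemma sm_cyl (hS : S ⊆ {0}ᶜ) : Sm (dev 1 cyl) S k' 0 :=
  ((sm_zero le_rfl).congr isOpen_compl_singleton fun _ => dev_cyl).mono hS le_rfl le_rfl

/-- limits that are cylinders -/
theorem neck_of_cyl (hε : 0 < ε) (hS : IsOpen S) (hs : cann (exp (-ε⁻¹)) (exp ε⁻¹) ⊆ S)
    (he : ∀ᶠ n in l, Emb (ψ n) (anl ε⁻¹) (W n)) (hc : Cv l S (fun n => comap (ψ n) (k n)) cyl) :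
    ∀ᶠ n in l, Neck (k n) (W n) (ψ n) 1 ε :=
  neck_ev one_pos hε hS hs he hc (sm_cyl cann_ne) hε

end lim

/-- flipping a neck -/
theorem exists_flip (hε : 0 < ε) : ∃ δ₀ > 0, ∀ (M : Type) [TopologicalSpace M] [ChartedSpace E3 M]
    [IsManifold 𝓘(ℝ, E3) ∞ M] (g : Ten E3 M) (U : Set M) (φ : E3 → M) (h δ : ℝ), Met g U →
    Neck g U φ h δ → δ ≤ δ₀ → Neck g U (φ ∘ inv) h ε := by
  obtain ⟨δ₀, h0, H⟩ := exists_delta
    (P := fun G _ => Sm (dev 1 (comap inv G)) (anl ε⁻¹) ⌊ε⁻¹⌋₊ ε) fun G δ h1 h2 => by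
      have h3 := cv_comap isOpen_compl_singleton isOpen_compl_singleton
        (cv_neck (.of_forall h1) h2) ld_inv'.contDiffOn fun _ => inv_ne
      simp only [one_pow, inv_one, one_smul] at h3
      filter_upwards [Sm.ev (cv_dev' isOpen_compl_singleton
        (h3.congr (f' := fun n => comap inv (G n)) (fun _ _ => .of_forall fun _ => rfl)
          fun _ hx => (comap_inv_cyl hx).symm) 1)
        isOpen_compl_singleton isCompact_cann cann_ne (sm_cyl cann_ne) hε] with n hn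
      exact hn.mono anl_sub_cann le_rfl le_rfl
  refine ⟨min δ₀ ε, lt_min h0 hε, fun M _ _ _ g U φ h δ hg K hδ => ?_⟩
  have h1 := (K.mono (hδ.trans (min_le_right _ _))).emb
  refine ⟨K.hpos, hε, h1.flip, (H _ δ (nk_of_neck hg K).scale
    (hδ.trans (min_le_left _ _))).congr isOpen_anl fun x hx => ?_⟩
  rw [comap_smul, dev_scale]
  exact dev_congr (h1.comap_comp emb_inv_anl g hx)

end Vale.Agent.P216SG
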