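import Vale.Agent.P216SG.Neck
import Vale.Agent.P216S.Pin
import Vale.Agent.P216U.Curv
import Vale.Agent.P216BF.Scal
import Vale.Agent.P216BG.Seg
import Vale.Agent.P216R.Flow

/-! # Curvature at the centre of a neck -/

open scoped Manifold ContDiff Topology RealInnerProductSpace
open Set Metric Real Filter

set_option maxSynthPendingDepth 3

noncomputable section

namespace Vale.Agent.P216SG

open Vale.Agent.P216R Vale.Agent.P216S Vale.Agent.P216U Vale.Agent.P216BF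
open Vale.Agent.P210.R2.H53 (gamG lapG)
open Vale.Agent.P219.RG (IsMetricOn)

variable {M : Type} [TopologicalSpace M] [ChartedSpace E3 M] [IsManifold 𝓘(ℝ, E3) ∞ M]
  {M' : Type} [TopologicalSpace M'] [ChartedSpace E3 M'] [IsManifold 𝓘(ℝ, E3) ∞ M']
  {g : Ten E3 M} {U : Set M} {φ : E3 → M} {p q : M} {c d h δ ε η : ℝ} {x : E3}

/-- points near the centre of a neck are centres of necks -/
lemma Cen.shift (H : Cen g U p h δ) (hs : Hs U) (hδ : δ ≤ 1 / 25) (hε : 0 < ε)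
    (hd : d + ε⁻¹ ≤ δ⁻¹) (hq : q ∈ bl g U p (7 / 5 * h * d)) : Cen g U q h ε := by
  obtain ⟨φ, H, x, hx, rfl⟩ := H
  have h0 := inv_pos.2 hε
  have h1 : lv x = 0 := lv_of_mem (by rwa [exp_zero])
  obtain ⟨y, hy, rfl⟩ := (H.tb hδ).bl_sub hs (sphere_sub_anl H.inv_pos hx) (by linarith)
    (by linarith) hq
  rw [h1, mem_lan] at hy
  exact H.cen hε hy.1 (by linarith [abs_le.2 ⟨(zero_sub d ▸ hy.2.1).le, (zero_add d ▸ hy.2.2).le⟩])

/-- properties that hold near the cylinder hold at the centres of good necks -/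
theorem cen_soft {P : (E3 → Bil E3) → E3 → Prop}
    (H : ∀ G : ℕ → E3 → Bil E3, Cv (hyperfilter ℕ) {0}ᶜ G cyl → ∀ x ∈ sphere (0 : E3) 1,
      (∀ᶠ q in (hyperfilter ℕ : Filter ℕ) ×ˢ 𝓝[{0}ᶜ] x, ∃ V, IsMetricOn (G q.1) V ∧ q.2 ∈ V) →
      ∀ᶠ q in (hyperfilter ℕ : Filter ℕ) ×ˢ 𝓝[{0}ᶜ] x, P (G q.1) q.2) :
    ∃ ε₀ > 0, ∀ (M : Type) [TopologicalSpace M] [ChartedSpace E3 M] [IsManifold 𝓘(ℝ, E3) ∞ M]
      (g : Ten E3 M) (U : Set M) (p : M) (h ε : ℝ), Met g U → Cen g U p h ε → ε ≤ ε₀ →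
      ∃ φ u, φ u = p ∧ LI (comap φ (h⁻¹ ^ 2 • g)) (h⁻¹ ^ 2 • g) φ u ∧
        P (comap φ (h⁻¹ ^ 2 • g)) u := by
  have hs : sphere (0 : E3) 1 ⊆ {0}ᶜ := fun x hx => anl_ne (sphere_sub_anl one_pos hx)
  obtain ⟨δ₀, h0, K⟩ := exists_delta (P := fun G _ => ∀ u ∈ sphere (0 : E3) 1, P G u)
    fun G δ h1 h2 => ev_compact (P := fun q => P (G q.1) q.2) (isCompact_sphere 0 1) hs
      fun x hx => H G (by simpa using cv_neck (.of_forall h1) h2) x hx
        (((ev_anl (.of_forall h1) h2 (hs hx)).filter_mono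
          (prod_mono le_rfl nhdsWithin_le_nhds)).mono fun q hq => ⟨_, (h1 q.1).met, hq⟩)
  refine ⟨δ₀, h0, fun M _ _ _ g U p h ε hg ⟨φ, k, u, hu, e⟩ hε => ⟨φ, u, e, ?_, ?_⟩⟩
  · have := sphere_sub_anl k.inv_pos hu
    exact li_comap (hg.smul (by have := k.hpos; positivity)) k.emb.ld this (k.emb.mem this)
  · rw [comap_smul, inv_pow]
    exact K _ ε (nk_of_neck hg k).scale hε u hu

/-- the curvature at `p` is that of the cylinder of scale `h` up to the error `η` -/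
structure NF (g : Ten E3 M) (p : M) (h η : ℝ) : Prop where
  sc : |h ^ 2 * Sc g p - 1| ≤ η
  sec : SecGe g p (-(η / h ^ 2))
  ric : ¬RicGe g p (η / h ^ 2)
  gam : h ^ 6 * gam g (Sc g) (Sc g) p ≤ η
  lap : h ^ 4 * |lap g (Sc g) p| ≤ η

lemma NF.li {k : Ten E3 M'} {f : M' → M} {y : M'} (H : NF k y h η) (L : LI k g f y) :
    NF g (f y) h η := by
  obtain ⟨V, hV, hy⟩ := L.met
  have e : Sc k =ᶠ[𝓝 y] Sc g ∘ f := L.eventually.mono fun _ a => a.Sc
  have s : ContDiffAt ℝ ∞ (rd E3 (Sc g) (f y)) (pt E3 (f y)) :=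
    ((scG_cd (hV.isMetricOn _)).congr fun _ hu => hV.rd_Sc hu).contDiffAt
      ((isOpen_dom _ hV.isOpen).mem_nhds (pt_mem_dom hy))
  have s1 := s.differentiableAt (by simp)
  refine ⟨L.Sc ▸ H.sc, (L.SecGe _).1 H.sec, fun a => H.ric fun v => ?_, ?_, ?_⟩
  · rw [L.Ric, L.apply]; exact a _
  · rw [← L.gam s1 s1, ← gam_congr rfl e e]; exact H.gam
  · rw [← L.lap (s.of_le (by norm_cast)), ← lap_congr .rfl e]; exact H.lap

lemma NF.unscale (H : NF (h⁻¹ ^ 2 • g) p 1 η) (hg : Met g U) (hp : p ∈ U) (hh : 0 < h) :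
    NF g p h η := by
  have h0 : h⁻¹ ^ 2 ≠ 0 := by positivity
  have e : Sc (h⁻¹ ^ 2 • g) = fun y => h ^ 2 * Sc g y := by
    ext y; rw [Sc_smul _ _ h0, inv_pow, inv_inv]
  have s : ContDiffAt ℝ ∞ (rd E3 (Sc g) p) (pt E3 p) :=
    ((scG_cd (hg.isMetricOn _)).congr fun _ hu => hg.rd_Sc hu).contDiffAt
      ((isOpen_dom _ hg.isOpen).mem_nhds (pt_mem_dom hp))
  have e1 : fderiv ℝ (rd E3 (fun y => h ^ 2 * Sc g y) p) =ᶠ[𝓝 (pt E3 p)]
      fun u => h ^ 2 • fderiv ℝ (rd E3 (Sc g) p) u :=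
    ((s.of_le (m := 1) (by norm_cast)).eventually (by simp)).mono fun u hu =>
      fderiv_const_mul (hu.differentiableAt one_ne_zero) _
  obtain ⟨h1, h2, h3, h4, h5⟩ := H
  refine ⟨by rw [e] at h1; simpa using h1, ?_, fun a => h3 fun v => ?_, ?_, ?_⟩
  · rw [SecGe_smul _ _ (by positivity)] at h2
    convert h2 using 1; field_simp
  · rw [Ric_smul _ h0]
    convert a v using 1
    simp only [Pi.smul_apply, smul_apply, smul_eq_mul]; field_simp
  · rw [gam_smul _ _ _ _ h0, e] at h4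
    convert h4 using 1
    simp only [P216R.gam, gamG, P210.R2.H53.gradG, e1.eq_of_nhds, map_smul, smul_apply, smul_eq_mul]
    field_simp
  · rw [lap_smul _ _ _ h0, e] at h5
    convert h5 using 1
    have : hess g (fun y => h ^ 2 * Sc g y) p = h ^ 2 • hess g (Sc g) p := by
      ext v w
      simp only [hess, P216R.hessG_apply, e1.fderiv_eq, e1.eq_of_nhds, smul_apply, smul_eq_mul]
      rw [fderiv_fun_const_smul ((s.fderiv_right (m := 1) (by norm_cast)).differentiableAt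
        one_ne_zero)]
      simp only [smul_apply, smul_eq_mul]; ring
    rw [lap_eq, lap_eq, this, P216R.trB_smul, inv_pow, inv_inv, ← mul_assoc, abs_mul,
      abs_of_pos (by positivity : 0 < h ^ 2 * h ^ 2)]
    ring

lemma ric_cyl (hx : x ≠ 0) : ricG cyl x x x = 0 := by
  have h := pG_cyl hx x x
  have h0 := norm_ne_zero_iff.2 hx
  rw [pG, sc_cyl hx, ax_apply hx, real_inner_self_eq_norm_sq] at h
  simp only [sub_apply, smul_apply, smul_eq_mul, cyl_apply, real_inner_self_eq_norm_sq] at h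
  field_simp at h
  linarith

theorem exists_nf (hη : 0 < η) :
    ∃ ε₀ > 0, ∀ (M : Type) [TopologicalSpace M] [ChartedSpace E3 M] [IsManifold 𝓘(ℝ, E3) ∞ M]
      (g : Ten E3 M) (U : Set M) (p : M) (h ε : ℝ), Met g U → Cen g U p h ε → ε ≤ ε₀ →
      NF g p h η := by
  obtain ⟨ε₀, h0, H⟩ := cen_soft (P := fun G u => NF G u 1 η) fun G h x hx hm => by
    have hx : x ≠ 0 := anl_ne (sphere_sub_anl one_pos hx)
    have hS := Nice.of_isOpen (isOpen_compl_singleton (x := (0 : E3)))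
    have e : scG cyl =ᶠ[𝓝 x] fun _ => 1 :=
      (isOpen_compl_singleton.eventually_mem hx).mono fun _ => sc_cyl
    have g1 := (h.tendsto hS hx).const_smul η
    have s := cv_scG h cyl_metric
    have p1 := g1.add (((cv_pG h cyl_metric).tendsto hS hx).sub
      (((pG_cd cyl_metric).continuousOn x hx).tendsto.comp tendsto_snd))
    have p2 := ((ContinuousLinearMap.apply ℝ ℝ x).continuous.tendsto _).comp
      (((ContinuousLinearMap.apply ℝ _ x).continuous.tendsto _).comp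
        (g1.sub ((cv_ricG h cyl_metric).tendsto hS hx)))
    have p3 := (cv_gamG h cyl_metric s s).tendsto hS hx
    have p4 := ((cv_lapG h cyl_metric s).tendsto hS hx).abs
    have p5 := ((s.tendsto hS hx).sub_const 1).abs
    have hp : ∀ v, v ≠ 0 → 0 < (η • cyl x) v v := fun v hv => mul_pos hη (cyl_metric.pos x hx v hv)
    rw [sub_self, add_zero] at p1
    rw [gamG_congr rfl e e, gamG, fderiv_fun_const] at p3
    rw [lapG_congr .rfl e, P216R.lapG_eq, show P210.R2.H53.hessG cyl (fun _ => 1) x = (0 : ℝ) • 0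
      by ext v w; simp [P216R.hessG_apply], P216R.trB_smul, zero_mul, abs_zero] at p4
    rw [sc_cyl hx, sub_self, abs_zero] at p5
    filter_upwards [ev_nonneg p1 hp, p2.eventually (eventually_gt_nhds (b := 0) (by
        simpa [ric_cyl hx] using hp x hx)), p3.eventually (eventually_le_nhds hη),
      p4.eventually (eventually_le_nhds hη), p5.eventually (eventually_le_nhds hη), ev_mem _ _ x,
      hm] with q h1 h2 h3 h4 h5 h6 ⟨V, h7, h8⟩
    have e' : Sc (G q.1) = scG (G q.1) := funext (Sc_model _)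
    refine ⟨by simpa [e'] using h5, (secGe_pG fr3 h7 h8).2 fun v => ?_, fun a => ?_,
      by simpa [e', gam_model] using h3, by simpa [e', lap_model] using h4⟩
    · have := h1 v
      simp only [add_apply, sub_apply, smul_apply, smul_eq_mul, Function.comp, pG_cyl h6] at this
      nlinarith [mul_self_nonneg (fderiv ℝ ax q.2 v)]
    · have := a x
      rw [Ric_model] at this
      simp at h2 this
      linarith
  refine ⟨ε₀, h0, fun M _ _ _ g U p h ε hg k hε => ?_⟩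
  obtain ⟨φ, u, rfl, h1, h2⟩ := H M g U p h ε hg k hε
  exact (h2.li h1).unscale hg k.mem k.hpos

theorem exists_cen_rmB (k : ℕ) :
    ∃ C > 0, ∃ ε₀ > 0, ∀ (M : Type) [TopologicalSpace M] [ChartedSpace E3 M]
      [IsManifold 𝓘(ℝ, E3) ∞ M] (g : Ten E3 M) (U : Set M) (p : M) (h ε : ℝ), Met g U →
      Cen g U p h ε → ε ≤ ε₀ → RmB g k p (C / h ^ (k + 2)) := by
  have hs : sphere (0 : E3) 1 ⊆ {0}ᶜ := fun x hx => anl_ne (sphere_sub_anl one_pos hx)
  obtain ⟨C, h0, hC⟩ := P216BG.exists_rmB (met_model.2 cyl_metric) (isCompact_sphere 0 1) hs k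
  obtain ⟨ε₀, h1, H⟩ := cen_soft (P := fun G u => RmB G k u (C + 1)) fun G h x hx _ =>
    (rmB_ev h cyl_metric (hs hx) (hC x hx) (lt_add_one C)).filter_mono
      (prod_mono le_rfl nhdsWithin_le_nhds)
  refine ⟨C + 1, by linarith, ε₀, h1, fun M _ _ _ g U p h ε hg K hε => ?_⟩
  obtain ⟨φ, u, rfl, h2, h3⟩ := H M g U p h ε hg K hε
  have := (hg.RmB_smul K.mem (inv_pos.2 K.hpos) k _).1 ((h2.RmB k _).1 h3)
  rwa [inv_pow, ← div_eq_inv_mul] at this

/-- the same on a ball of radius `m h` -/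
theorem exists_nf_bl (hη : 0 < η) (m : ℝ) :
    ∃ ε₀ > 0, ∀ (M : Type) [TopologicalSpace M] [ChartedSpace E3 M] [IsManifold 𝓘(ℝ, E3) ∞ M]
      (g : Ten E3 M) (U : Set M) (p : M) (h ε : ℝ), Met g U → Hs U → Cen g U p h ε → ε ≤ ε₀ →
      ∀ q ∈ bl g U p (m * h), NF g q h η := by
  obtain ⟨ε₁, h1, H⟩ := exists_nf hη
  refine ⟨min (1 / 25) (|m| + ε₁⁻¹)⁻¹, by positivity, fun M _ _ _ g U p h ε hg hs K hε q hq =>
    H M g U q h ε₁ hg (K.shift (d := |m|) hs (hε.trans (min_le_left _ _)) h1 ?_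
      (bl_mono ?_ hq)) le_rfl⟩
  · obtain ⟨φ, K, -⟩ := K
    exact (le_inv_comm₀ K.dpos (by positivity)).1 (hε.trans (min_le_right _ _))
  · nlinarith [le_abs_self m, abs_nonneg m, K.hpos]

end Vale.Agent.P216SG
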