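import Vale.Agent.P216SG.Nkf
import Vale.Agent.P216BG.Np
import Vale.Agent.P216BG.Spl
import Vale.Agent.P216U.Stab
import Vale.Agent.P216C.Near

/-! # No fresh cap near a long segment -/

open scoped Manifold ContDiff Topology
open Set Real Filter

noncomputable section

namespace Vale.Agent.P216SG

open Vale.Agent.P216R Vale.Agent.P216DC Vale.Agent.P216FA Vale.Agent.P216U

lemma ev_choose {ι : Type} {l : Filter ι} {α : ι → Type} (x : ∀ n, α n) {p : ∀ n, α n → Prop}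
    (h : ∀ᶠ n in l, ∃ y, p n y) : ∃ y : ∀ n, α n, ∀ᶠ n in l, p n (y n) := by
  classical
  exact ⟨fun n => if k : ∃ y, p n y then k.choose else x n, h.mono fun n k => by
    simpa only [dif_pos k] using k.choose_spec⟩

section static

variable {M : Type} [TopologicalSpace M] [ChartedSpace E3 M] {g : Ten E3 M} {U : Set M}
  {γ : ℝ → M} {p q v z : M} {c σ ℓ a e u ρ lam ε C A w : ℝ}

lemma al_seg (h : MinGeo g U γ ℓ) (h0 : 0 ≤ a) (h1 : a ≤ u) (h2 : u + a ≤ ℓ) (he : 0 ≤ e) :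
    AL g U (γ u) a e := by
  have k : ∀ s ∈ Icc 0 ℓ, ∀ t ∈ Icc 0 ℓ, dd g U (γ s) (γ t) = |s - t| := fun s hs t ht => by
    rw [dd, h.min s hs t ht, ENNReal.toReal_ofReal (abs_nonneg _)]
  have hu : u ∈ Icc 0 ℓ := ⟨by linarith, by linarith⟩
  have m := (seg_of_minGeo h).mem
  have a0 := left_mem_Icc.2 h.nonneg
  have a1 := right_mem_Icc.2 h.nonneg
  refine ⟨_, m a0, _, m a1, ?_⟩
  rw [k _ hu _ a0, k _ hu _ a1, k _ a0 _ a1, sub_zero, zero_sub, abs_neg, abs_of_nonneg hu.1,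
    abs_of_nonneg h.nonneg, abs_of_nonpos (sub_nonpos.2 hu.2)]
  exact ⟨h1, by linarith, by linarith⟩

lemma bl_trans {r s t : ℝ} (h1 : p ∈ bl g U v r) (h2 : q ∈ bl g U p s) (h : r + s ≤ t) :
    q ∈ bl g U v t :=
  bl_mono h (bl_add (pos_of_mem_bl h1).le (bl_subset_cbl h1) h2)

/-- the curvature near a fresh cap is not almost constant -/
lemma not_fl1 [MeasurableSpace M] (hc : 1 ≤ c) (hσ : 0 < σ)
    (H : Fl1 (1 / 100) (100 * c ^ 2) g U v σ) (hv : p ∈ bl g U v (30 * σ))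
    (hp : p ∈ bl g U z (4 * c)) (hq : q ∈ bl g U z (4 * c)) (h1 : Sc g p ∈ Icc (23 / 20) (2 * c))
    (h2 : Sc g q ≤ 21 / 20) : False := by
  have c2 : 1 ≤ c ^ 2 := one_le_pow₀ hc
  have s2 := sq_nonneg σ
  have k1 := abs_le.1 (H p (bl_mono (by nlinarith) hv))
  have k2 : 0.7 ≤ c * σ := by
    refine (pow_le_pow_iff_left₀ (by norm_num) (by positivity) two_ne_zero).1 ?_
    nlinarith [mul_le_mul_of_nonneg_left h1.2 s2, mul_nonneg s2 (mul_nonneg (sub_nonneg.2 hc)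
      (zero_le_one.trans hc))]
  have k3 := abs_le.1 (H q (bl_trans hv (bl_trans (mem_bl_comm.1 hp) hq le_rfl) (by nlinarith)))
  nlinarith [mul_le_mul_of_nonneg_left h1.1 s2, mul_le_mul_of_nonneg_left h2 s2]

variable [IsManifold 𝓘(ℝ, E3) ∞ M] [MeasurableSpace M]

/-- the curvature along a segment is bounded below at bounded distance -/
lemma sc_low (hg : Met g U) (h : MinGeo g U γ ℓ) (h1 : ρ ≤ a) (h2 : a + ρ ≤ ℓ)
    (hs : Sc g (γ a) = 1) (hl : 0 < lam) (hC : 1 ≤ C) (h3 : C * lam < 1) (h4 : ρ * √lam < A)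
    (H : ∀ u ∈ Icc (a - ρ) (a + ρ), lam ≤ Sc g (γ u) → CN ε C A w g U (γ u)) :
    ∀ u ∈ Icc (a - ρ) (a + ρ), lam ≤ Sc g (γ u) := fun u hu => by
  by_contra! k
  have ha : a ∈ Icc (a - ρ) (a + ρ) := ⟨by linarith [hu.1, hu.2], by linarith [hu.1, hu.2]⟩
  have s1 := uIcc_subset_Icc hu ha
  have s2 : Icc (a - ρ) (a + ρ) ⊆ Icc 0 ℓ := Icc_subset_Icc (by linarith) h2
  have S := seg_of_minGeo h
  obtain ⟨t, ht, e⟩ := intermediate_value_uIcc ((hg.continuousOn_Sc.comp S.cont S.mem).mono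
    (s1.trans s2)) (mem_uIcc_of_le k.le (show lam ≤ Sc g (γ a) by nlinarith))
  have e : Sc g (γ t) = lam := e
  have := ((H t (s1 ht) e.ge).dt.two (γ a) (by
    rw [bl, mem_ofPred, h.min t (s2 (s1 ht)) a (s2 ha), sg, e, ← div_eq_mul_inv]
    have := sqrt_pos.2 hl
    have : |t - a| ≤ ρ := abs_le.2 ⟨by linarith [(s1 ht).1], by linarith [(s1 ht).2]⟩
    exact (ENNReal.ofReal_lt_ofReal_iff_of_nonneg (abs_nonneg _)).2
      ((lt_div_iff₀ (by positivity)).2 (by nlinarith)))).2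
  rw [hs, e] at this
  linarith

omit [IsManifold 𝓘(ℝ, E3) ∞ M] in
/-- points of the slice at bounded distance from a point of the region lie in the region -/
lemma reg_bl {F : P216FA.Dat M} {κ CD r r' τ a s t : ℝ} {W : Set M} {y : M}
    (H : F.Env κ CD r' τ a) (hy : F.Reg r t W s y) (hz : z ∈ bl (F.g s) W y ρ) (h1 : r + ρ ≤ r')
    (h2 : t ≤ τ) : F.Reg r' τ W s z := by
  have h3 := pos_of_mem_bl hz
  have h4 : F.t - τ ≤ s := le_trans (by linarith) hy.le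
  have := H.d1 W s y ⟨hy.prec, h4, hy.mem, hy.dle.trans (by linarith)⟩ z (bl_subset hz)
  exact ⟨hy.prec, h4, bl_subset hz, by linarith [hy.dle, (mem_bl_iff.1 hz).2]⟩

end static

/-- no backward window near a long segment is stopped by a birth at the scale one -/
def NOCAP : Prop :=
  ∀ c : ℕ → ℝ, ∃ e > 0, ∀ P : Cs, P.c = c → P.Ok e → 4 * P.L ≤ 1 → ∃ a₀ > 0, ∀ a ∈ Ioc 0 a₀,
    ∀ (ι : Type) (l : Ultrafilter ι) (X : ι → Mf) (F : ∀ n, P216FA.Dat (X n).M) (T : ℝ),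
      (∀ L > 0, BU { P with L := L } l F) → (∀ n, (F n).h = 1) →
      (∀ᶠ n in l, (F n).δ * c 0 ≤ 1 / 8) →
      (∀ A > 0, ∀ᶠ n in l, ∃ γ, MinGeo ((F n).g 0) (F n).U γ (2 * A) ∧ γ A = (F n).x) →
      ¬CapAt (wr a) (wt a) P.L l F T

theorem nocap (S : SCALE) (hR : RAT) (hL : LPX) : NOCAP := fun c => by
  obtain ⟨e₁, he₁, N⟩ := nkf (100 * c 0 ^ 2)
  obtain ⟨e₂, he₂, LX⟩ := hL c
  refine ⟨min e₁ e₂, by positivity, fun P hc hP h4 => ?_⟩
  subst hc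
  have hε : P.ε ≤ e₁ := hP.εe.trans (min_le_left _ _)
  obtain ⟨a₀, ha₀, R⟩ := hR P _ hP
  refine ⟨a₀, ha₀, fun a ha ι l X F T hB hh hδ hγ ⟨hT, A, K, r, hK, H⟩ => ?_⟩
  have B : BU P l F := hB P.L hP.L0
  have c0 := hP.c1 0
  have C1 := hP.C1
  have A1 := hP.A1
  obtain ⟨lev, hlev, R⟩ := R a ha r T 1
  have H' : ∀ᶠ n in l, ∃ y p : (X n).M, y ∈ bl ((F n).g 0) (F n).U (F n).x A ∧ ∃ W z q,
      (F n).Reg r T W (-T) y ∧ p ∈ bl ((F n).g (-T)) W y (|wr a K| + 4 * P.c 0) ∧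
      p ∈ bl ((F n).g (-T)) W z (4 * P.c 0) ∧ q ∈ bl ((F n).g (-T)) W z (4 * P.c 0) ∧
      Sc ((F n).g (-T)) p ∈ Icc (23 / 20) (2 * P.c 0) ∧ Sc ((F n).g (-T)) q ≤ 21 / 20 := by
    filter_upwards [H, B.ctl lev hlev, hδ] with n ⟨y, h1, W, z, h2, _, h3⟩ h5 h6
    obtain ⟨p, k1, q, k2, k3, k4⟩ := R _ _ W _ y z K _ h5 h2 hK h3 h6 (hh n).le (by simpa [hh])
    simp only [hh, mul_one, one_pow, one_mul] at k1 k2 k3 k4
    exact ⟨y, p, h1, W, z, q, h2, bl_add (abs_nonneg _) (cbl_mono (le_abs_self _) h3.mem) k1,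
      k1, k2, k3, k4.2⟩
  generalize |wr a K| + 4 * P.c 0 = ρ at H'
  have clo := fun n => S.clo _ _ _ _ _ (B.all n).1 (B.all n).1.sl
  simp only [(B.all _).2.1] at clo
  rcases hT with rfl | ⟨hT, T', hT', K', hE⟩
  · obtain ⟨R', hR, hR'⟩ : ∃ R' > 0, A + ρ ≤ R' := ⟨max 1 (A + ρ), by positivity, le_max_right _ _⟩
    obtain ⟨s, hs, s1, s2⟩ : ∃ s > 0, P.C * s ^ 2 < 1 ∧ 2 * R' * s < P.A := by
      refine ⟨(2 * (P.C + R'))⁻¹, by positivity, ?_, ?_⟩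
      · rw [inv_pow, mul_inv_lt_iff₀ (by positivity)]; nlinarith
      · rw [mul_inv_lt_iff₀ (by positivity)]; nlinarith
    have hA : 0 < 2 * R' + (30 + P.A) * s⁻¹ := by positivity
    obtain ⟨n, ⟨y, p, h1, W, z, q, h2, h3, h5⟩, h6, γ, h7, h8⟩ := (H'.and
      (((hB (s ^ 2) (by positivity)).ctl (2 * R' + 1) (by positivity)).and (hγ _ hA))).exists
    have t0 := (B.all n).2.1
    obtain rfl : W = (F n).U := (h2.prec.resolve_right fun k => by simp [t0] at k).2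
    rw [neg_zero] at h3 h5
    have cl := clo n
    have si := inv_pos.2 hs
    have pa : 0 ≤ P.A * s⁻¹ := by positivity
    generalize hA' : 2 * R' + (30 + P.A) * s⁻¹ = A' at hA h7 h8
    have cn : ∀ u ∈ Icc (A' - 2 * R') (A' + 2 * R'), s ^ 2 ≤ Sc ((F n).g 0) (γ u) →
        CN P.ε P.C P.A P.w ((F n).g 0) (F n).U (γ u) := fun u hu =>
      h6.cn _ 0 _ (reg_bl (r := 0) (t := 0) (ρ := 2 * R' + 1) h6.env ⟨.inl ⟨t0.symm, rfl⟩,
        by simp [t0], (B.all n).1.mem, by simp [t0]⟩ (by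
          rw [← h8, bl, mem_ofPred, h7.min A' ⟨hA.le, by linarith⟩ u
            ⟨by linarith [hu.1], by linarith [hu.2]⟩]
          exact (ENNReal.ofReal_lt_ofReal_iff (by positivity)).2
            (abs_lt.2 ⟨by linarith [hu.2], by linarith [hu.1]⟩)) (by simp) (by positivity))
    have lo := sc_low cl.met h7 (by linarith) (by linarith) (h8 ▸ (B.all n).2.2) (by positivity) C1
      s1 (by rwa [sqrt_sq hs.le]) cn
    have nk : ∀ u ∈ Icc (A' - 2 * R') (A' + 2 * R'), sg ((F n).g 0) (γ u) ∈ Ioc 0 s⁻¹ ∧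
        Cen ((F n).g 0) (F n).U (γ u) (sg ((F n).g 0) (γ u)) P.ε := fun u hu => by
      have k := cn u hu (lo u hu)
      have k1 := sg_pos k.pos
      have k2 : sg ((F n).g 0) (γ u) ≤ s⁻¹ := inv_anti₀ hs (le_sqrt_of_sq_le (lo u hu))
      have k3 := mul_le_mul_of_nonneg_left k2 (show 0 ≤ P.A by linarith)
      exact ⟨⟨k1, k2⟩, k.nt.neck (al_seg h7 (by positivity) (by linarith [hu.1])
        (by linarith [hu.2]) k1.le)⟩
    obtain ⟨u, hu, k⟩ := P216BG.np _ _ _ γ (fun u => sg ((F n).g 0) (γ u)) p _ 0 A' R' s⁻¹ cl.met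
      cl.hs (cl.met.cpl cl.cpt) h7 ⟨le_rfl, zero_le_one⟩ (h8 ▸ bl_trans h1 h3 hR') (by linarith)
      (by linarith) fun u hu => ⟨(nk u hu).1, (N _ _ _ _ _ _ cl.met cl.hs hε (nk u hu).2).1⟩
    exact not_fl1 c0 (nk u hu).1.1 (N _ _ _ _ _ _ cl.met cl.hs hε (nk u hu).2).2 k h5.1 h5.2.1
      h5.2.2.1 h5.2.2.2
  · obtain ⟨L, G, Z⟩ := LX P rfl { hP with εe := hP.εe.trans (min_le_right _ _) } ι l X F _ B
      (bk_Ioc (hT.trans hT')) fun τ _ hτ => ⟨K', fun A hA => (hE A hA).mono fun n k =>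
        P216C.parB_mono k (clo n).met le_rfl (by linarith [hτ.1])⟩
    have i0 : (0 : ℝ) ∈ Ioc (-T') 0 := ⟨by linarith, le_rfl⟩
    have iT : -T ∈ Ioc (-T') 0 := ⟨by linarith, by linarith⟩
    have hU : ∀ᶠ n in l, Hs (F n).U := .of_forall fun n => (clo n).hs
    have e0 : G 0 = L.h := funext fun p => Z.fl.zero (mem_univ p)
    obtain ⟨b, hb⟩ := P216BG.als ⟨L.X⟩ (G 0) univ L.o 1 (Z.nn 0 i0) trivial fun ℓ => e0 ▸
      al_mono (L.conv.al_lim (A := max ℓ 1) hU L.cb trivial L.ap tendsto_const_nhds (by positivity)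
        le_top one_pos ((hγ (max ℓ 1) (by positivity)).mono fun n ⟨γ, k1, k2⟩ => k2 ▸
          al_seg k1 (by positivity) le_rfl (by linarith) le_rfl)) (le_max_left _ _) le_rfl
    obtain ⟨K₁, hK₁⟩ := Z.bdd _ iT
    have sub := (bk_Ioc (hT.trans hT')).icc iT
    obtain ⟨b', hb'⟩ := P216BG.bsp ⟨L.X⟩ G univ b (-T) 0 K₁ iT.2 (Z.fl.rf.mono_time sub)
      (fun t ht => ⟨Z.nn t (sub ht), fun x _ => hK₁ t ht x⟩) ⟨L.o, trivial⟩ hb
    obtain ⟨y, H1⟩ := ev_choose (fun n => (F n).x) H'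
    obtain ⟨p, H2⟩ := ev_choose (fun n => (F n).x) H1
    have lv : 0 < |r| + |ρ| + T := by positivity
    have H3 : ∀ᶠ n in l, Clo ((F n).g (-T)) ((F n).sl (-T)) ∧
        p n ∈ bl ((F n).g (-T)) ((F n).sl (-T)) (y n) ρ ∧ 23 / 20 ≤ Sc ((F n).g (-T)) (p n) ∧
        ¬AL ((F n).g (-T)) ((F n).sl (-T)) (p n) (P.A * sg ((F n).g (-T)) (p n))
          (sg ((F n).g (-T)) (p n)) := by
      filter_upwards [H2, B.ctl _ lv] with n ⟨_, W, z, q, h2, h3, h5, h6, h7, h8⟩ h9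
      have t0 := (B.all n).2.1
      obtain rfl : W = (F n).sl (-T) := by
        rw [Dat.sl, if_pos (by linarith)]
        exact (h2.prec.resolve_left fun k => by linarith [k.1]).2
      have k1 := reg_bl h9.env h2 h3 (by linarith [le_abs_self r, le_abs_self ρ])
        (by linarith [abs_nonneg r, abs_nonneg ρ])
      have cl := S.clo _ _ _ _ _ h9.bas (S.regSl _ _ _ _ _ _ _ _ h9.bas h9.env.init k1)
      have k := h9.cn _ _ _ k1 (by linarith [h7.1])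
      have k2 := sg_pos k.pos
      exact ⟨cl, h3, h7.1, fun al => not_fl1 c0 k2 (N _ _ _ _ _ _ cl.met cl.hs hε (k.nt.neck al)).2
        (mem_bl_self k1.mem (by positivity)) h5 h6 h7 h8⟩
    obtain ⟨y₀, -, hy⟩ := L.exists_ap hU ENNReal.ofReal_lt_top (H2.mono fun n k => k.1.le)
    have cv := Z.conv _ iT
    have nn := Z.nn _ iT
    have hW := H3.mono fun n k => k.1.hs
    have hM := H3.mono fun n k => k.1.met
    obtain ⟨p₀, -, hp⟩ := cv.exists_ap hW (cb_of_cpl nn.cpl trivial) trivial hy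
      ENNReal.ofReal_lt_top (H3.mono fun n k => k.2.1.le)
    have s0 : 0 < Sc (G (-T)) p₀ := lt_of_lt_of_le (by norm_num)
      (ge_of_tendsto (cv.sc_ap hM trivial hp) (H3.mono fun n k => k.2.2.1))
    have s1 := cv.sg_ap hM trivial hp s0
    have s2 := sg_pos s0
    obtain ⟨n, k1, k2⟩ := (H3.and (cv.al_ev hW (cb_of_cpl nn.cpl trivial) hp
      (A := P.A * sg (G (-T)) p₀ + 1) (by positivity) le_top
      ((P216BG.sln ⟨L.X⟩ _ univ b' p₀ nn.met nn.hs nn.cpl hb' trivial).1 _) (s1.const_mul _) s1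
      (lt_add_one _) s2)).exists
    exact k1.2.2.2 k2

end Vale.Agent.P216SG
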