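import Vale.Agent.P216SG.Soft
import Vale.Agent.P216FA.Defs
import Vale.Agent.P216C.Plan

/-! # Necks have two ends and separate -/

open scoped Manifold ContDiff Topology
open Set Metric Real

noncomputable section

namespace Vale.Agent.P216SG

open Vale.Agent.P216R Vale.Agent.P216FA

variable {M : Type} [TopologicalSpace M] [ChartedSpace E3 M] [IsManifold 𝓘(ℝ, E3) ∞ M]
  {g : Ten E3 M} {U K : Set M} {φ : E3 → M} {p a b : M} {h δ ε η L : ℝ} {x y z : E3}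

omit [IsManifold 𝓘(ℝ, E3) ∞ M] in
lemma Neck.tb2 (H : Neck g U φ h δ) (hδ : δ ≤ 1 / 1000) :
    Tb g U φ (lan (-δ⁻¹) δ⁻¹) (1.4138 * h) (1.4146 * h) :=
  H.tb' (by norm_num) (by norm_num) (by linarith) (by linarith)

omit [IsManifold 𝓘(ℝ, E3) ∞ M] in
lemma dd_le_of {r : ℝ} (hr : 0 ≤ r) (h : ed g U a b ≤ ENNReal.ofReal r) : dd g U a b ≤ r :=
  ((mem_cbl_iff hr).1 h).2

/-- the level of a point is almost its distance to the centre -/
structure Lev (g : Ten E3 M) (U : Set M) (φ : E3 → M) (h δ : ℝ) (p : M) (y : E3) : Prop where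
  mem : y ∈ lan (-δ⁻¹) δ⁻¹
  lo : 1.4138 * h * |lv y| ≤ dd g U p (φ y)
  hi : dd g U p (φ y) ≤ 1.4146 * h * (|lv y| + π)

lemma Neck.lev (H : Neck g U φ h δ) (hδ : δ ≤ 1 / 1000) (hs : Hs U) (hx : x ∈ sphere (0 : E3) 1)
    (ha : a ∈ bl g U (φ x) (1400 * h)) : ∃ y, φ y = a ∧ Lev g U φ h δ (φ x) y := by
  have h1 : lv x = 0 := lv_of_mem (by rwa [exp_zero])
  have h2 : 1000 ≤ δ⁻¹ := (le_inv_comm₀ (by norm_num) H.dpos).2 (by linarith)
  have hx' : x ∈ lan (-δ⁻¹) δ⁻¹ := sphere_sub_anl H.inv_pos hx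
  have h0 := H.hpos
  obtain ⟨y, hy, rfl, h3⟩ := (H.tb2 hδ).pull (d := 1000) hs hx' (by linarith) (by linarith)
    (bl_mono (r := 1400 * h) (by linarith) ha)
  have h4 := (H.tb2 hδ).ed_le hx' hy
  rw [h1, zero_sub, abs_neg] at h3 h4
  refine ⟨y, rfl, hy, ?_, dd_le_of (by positivity) h4⟩
  rwa [← ofReal_dd (mem_bl_iff.1 ha).1, ENNReal.ofReal_le_ofReal_iff dd_nonneg] at h3

lemma Neck.same (H : Neck g U φ h δ) (hδ : δ ≤ 1 / 1000) (hy : Lev g U φ h δ p y)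
    (hz : Lev g U φ h δ p z) (hyz : 0 ≤ lv y * lv z) (h1 : dd g U p (φ y) ≤ 1400 * h)
    (h2 : dd g U p (φ z) ≤ 1400 * h) :
    dd g U (φ y) (φ z) ≤ |dd g U p (φ y) - dd g U p (φ z)| + 10 * h := by
  have h0 := H.hpos
  have h3 := dd_le_of (by positivity) ((H.tb2 hδ).ed_le hy.mem hz.mem)
  have h4 : |lv y - lv z| = |(|lv y| - |lv z|)| := by
    rcases mul_nonneg_iff.1 hyz with ⟨a, b⟩ | ⟨a, b⟩
    · rw [abs_of_nonneg a, abs_of_nonneg b]
    · rw [abs_of_nonpos a, abs_of_nonpos b, ← abs_neg]; congr 1; ring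
  have h5 : π * h ≤ 3.15 * h := by nlinarith [pi_lt_d2]
  have := hy.lo; have := hy.hi; have := hz.lo; have := hz.hi
  have := le_abs_self (dd g U p (φ y) - dd g U p (φ z))
  have := neg_abs_le (dd g U p (φ y) - dd g U p (φ z))
  rw [h4] at h3
  rcases abs_cases (|lv y| - |lv z|) with ⟨e, -⟩ | ⟨e, -⟩ <;> rw [e] at h3 <;> nlinarith

lemma three_sign (a b c : ℝ) : 0 ≤ a * b ∨ 0 ≤ b * c ∨ 0 ≤ a * c := by
  rcases le_total 0 a with ha | ha <;> rcases le_total 0 b with hb | hb <;>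
    rcases le_total 0 c with hc | hc <;> simp [mul_nonneg_iff, *]

omit [IsManifold 𝓘(ℝ, E3) ∞ M] in
lemma mem_bl_of_dd {r : ℝ} (h0 : 0 < dd g U p a) (h : dd g U p a < r) : a ∈ bl g U p r :=
  mem_bl_iff.2 ⟨fun e => by simp [dd, e] at h0, h⟩

/-- there is no tripod at the centre of a neck -/
theorem Cen.tri [MeasurableSpace M] (H : Cen g U p h ε) (hs : Hs U) (hε : ε ≤ 1 / 1000) :
    Tri 0 g U p h := by
  obtain ⟨φ, H, x, hx, rfl⟩ := H
  have h0 := H.hpos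
  intro ρ ⟨r1, r2⟩ a _ b _ c _ ha hb hc
  simp only [add_zero, sub_zero, div_one, abs_le] at *
  have k : ∀ a, -h ≤ dd g U (φ x) a - ρ ∧ dd g U (φ x) a - ρ ≤ h →
      ∃ y, φ y = a ∧ Lev g U φ h ε (φ x) y := fun a ha =>
    H.lev hε hs hx (mem_bl_of_dd (by linarith [ha.1]) (by linarith [ha.2]))
  have k2 : ∀ y z, Lev g U φ h ε (φ x) y → Lev g U φ h ε (φ x) z →
      -h ≤ dd g U (φ x) (φ y) - ρ ∧ dd g U (φ x) (φ y) - ρ ≤ h →
      -h ≤ dd g U (φ x) (φ z) - ρ ∧ dd g U (φ x) (φ z) - ρ ≤ h → 0 ≤ lv y * lv z →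
      dd g U (φ y) (φ z) ≤ 12 * h := fun y z hy hz a b e => by
    have := H.same hε hy hz e (by linarith [a.2]) (by linarith [b.2])
    have : |dd g U (φ x) (φ y) - dd g U (φ x) (φ z)| ≤ 2 * h :=
      abs_le.2 ⟨by linarith [a.1, b.2], by linarith [a.2, b.1]⟩
    linarith
  obtain ⟨a, rfl, la⟩ := k a ha
  obtain ⟨b, rfl, lb⟩ := k b hb
  obtain ⟨c, rfl, lc⟩ := k c hc
  exact (three_sign (lv a) (lv b) (lv c)).imp (k2 _ _ la lb ha hb)
    (.imp (k2 _ _ lb lc hb hc) (k2 _ _ la lc ha hc))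

theorem exists_fl1 (hη : 0 < η) (m : ℝ) :
    ∃ ε₀ > 0, ∀ (M : Type) [TopologicalSpace M] [ChartedSpace E3 M] [IsManifold 𝓘(ℝ, E3) ∞ M]
      [MeasurableSpace M] (g : Ten E3 M) (U : Set M) (p : M) (h ε : ℝ), Met g U → Hs U →
      Cen g U p h ε → ε ≤ ε₀ → Fl1 η m g U p h := by
  obtain ⟨ε₀, h0, H⟩ := exists_nf_bl hη m
  exact ⟨ε₀, h0, fun M _ _ _ _ g U p h ε hg hs K hε q hq => (H M g U p h ε hg hs K hε q hq).sc⟩

/-- every embedded annulus separates `U` -/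
def Sepa (U : Set M) : Prop := ∀ φ L, 0 < L → Emb φ (anl L) U → ∃ K, Side U φ L K

lemma sepa_of {C : Cls} (hC : CutClosed C) (h : C M U) (h1 : IsOpen U) (h2 : IsCompact U)
    (h3 : Hs U) (h4 : IsPreconnected U) : Sepa U := fun φ L hL he => by
  obtain ⟨φ', rfl | rfl, K, hK, -⟩ := hC M U φ L h h1 h2 h3 h4 hL he
  · exact ⟨K, hK⟩
  · have := hK.flip he.flip hL
    rw [show (φ ∘ inv) ∘ inv = φ from funext fun x => congrArg φ (inv_inv' x)] at this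
    exact ⟨_, this⟩

lemma sepa_of_mem {C : Cls} (hC : CutClosed C) (h : P216C.Mem C U) : Sepa U :=
  sepa_of hC h.cls h.isOpen h.cpt h.hs h.conn

omit [IsManifold 𝓘(ℝ, E3) ∞ M] in
/-- a connected set that meets both halves of a separating annulus meets the central sphere -/
lemma Side.meet (hK : Side U φ L K) {S : Set M} (hS : IsPreconnected S) (hU : S ⊆ U)
    (hy : y ∈ anl L) (hz : z ∈ anl L) (h1 : φ y ∈ S) (h2 : φ z ∈ S) (h : lv y * lv z < 0) :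
    ∃ u ∈ sphere (0 : E3) 1, φ u ∈ S := by
  by_contra! k
  have e : ∀ y ∈ anl L, φ y ∈ K ↔ 0 < lv y := fun y hy =>
    (hK.mem y hy).trans (log_pos_iff (norm_nonneg _)).symm
  rcases hK.subset_or hS hU (disjoint_right.2 fun _ ⟨u, hu, e⟩ => e ▸ k u hu) with a | a
  · linarith [mul_pos ((e y hy).1 (a h1)) ((e z hz).1 (a h2))]
  · have b1 := not_lt.1 fun b => disjoint_left.1 a h1 ((e y hy).2 b)
    have b2 := not_lt.1 fun b => disjoint_left.1 a h2 ((e z hz).2 b)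
    linarith [mul_nonneg_of_nonpos_of_nonpos b1 b2]

/-- a neck separates the points at its two ends -/
theorem Cen.sep (H : Cen g U p h ε) (hs : Hs U) (hε : ε ≤ 1 / 1000) (hU : Sepa U)
    (ha : a ∈ bl g U p (1400 * h)) (hb : b ∈ bl g U p (1400 * h))
    (hab : |dd g U p a - dd g U p b| + 10 * h < dd g U a b) {S : Set M} (hS : IsPreconnected S)
    (hSU : S ⊆ U) (h1 : a ∈ S) (h2 : b ∈ S) : ∃ q ∈ S, q ∈ bl g U p (5 * h) := by
  obtain ⟨φ, H, x, hx, rfl⟩ := H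
  obtain ⟨K, hK⟩ := hU φ _ H.inv_pos H.emb
  obtain ⟨y, rfl, ly⟩ := H.lev hε hs hx ha
  obtain ⟨z, rfl, lz⟩ := H.lev hε hs hx hb
  obtain ⟨u, hu, k⟩ := hK.meet hS hSU ly.mem lz.mem h1 h2 (not_le.1 fun e => hab.not_ge
    (H.same hε ly lz e (mem_bl_iff.1 ha).2.le (mem_bl_iff.1 hb).2.le))
  have h0 := H.hpos
  refine ⟨_, k, cbl_subset_bl (by positivity) (show 1.4146 * h * π < _ by nlinarith [pi_lt_d2])
    ((H.tb2 hε).ed_le_of_eq (sphere_sub_anl H.inv_pos hx) (sphere_sub_anl H.inv_pos hu) ?_)⟩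
  rw [lv_of_mem (c := 0) (by rwa [exp_zero]), lv_of_mem (c := 0) (by rwa [exp_zero])]

theorem Cen.not_joined (H : Cen g U p h ε) (hs : Hs U) (hε : ε ≤ 1 / 1000) (hU : Sepa U)
    (ha : dd g U p a ∈ Icc (99 * h) (101 * h)) (hb : dd g U p b ∈ Icc (99 * h) (101 * h))
    (hab : 150 * h ≤ dd g U a b) : ¬JoinedIn (U \ bl g U p (5 * h)) a b := fun ⟨γ, hγ⟩ => by
  have h0 := H.hpos
  obtain ⟨_, ⟨t, rfl⟩, k⟩ := H.sep hs hε hU (mem_bl_of_dd (by linarith [ha.1]) (by linarith [ha.2]))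
    (mem_bl_of_dd (by linarith [hb.1]) (by linarith [hb.2]))
    (by linarith [abs_le.2 (show -(2 * h) ≤ dd g U p a - dd g U p b ∧ _ ≤ 2 * h from
      ⟨by linarith [ha.1, hb.2], by linarith [ha.2, hb.1]⟩)])
    (isPreconnected_range γ.continuous) (range_subset_iff.2 fun t => (hγ t).1) γ.source_mem_range
    γ.target_mem_range
  exact (hγ t).2 k

end Vale.Agent.P216SG
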