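import Vale.Agent.P216SG.Tri
import Vale.Agent.P216FA.Plan

/-! # Necks have no tripods and almost constant scalar curvature -/

noncomputable section

namespace Vale.Agent.P216SG

theorem nkf : P216FA.NKF := fun m => by
  obtain ⟨e, h0, H⟩ := exists_fl1 (η := 1 / 100) (by norm_num) m
  exact ⟨min e (1 / 1000), by positivity, fun X g U x σ ε hg hs hε K =>
    ⟨K.tri hs (hε.trans (min_le_right _ _)),
      H X.M g U x σ ε hg hs K (hε.trans (min_le_left _ _))⟩⟩

end Vale.Agent.P216SG
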