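import Mathlib.Geometry.Manifold.MFDeriv.Atlas
import Mathlib.Geometry.Manifold.ContMDiff.Atlas

/-! # Gluing open subsets of the model space to a manifold along parametrisations -/

open Set Filter Topology Manifold
open scoped ContDiff

noncomputable section

namespace Vale.Agent.P216SG

/-- parametrisations `e i` of open subsets of `X` whose domains are enlarged to the sets `B i` -/
structure Dat (E X ι : Type) [TopologicalSpace E] [TopologicalSpace X] where
  /-- the parametrisations -/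
  e : ι → OpenPartialHomeomorph E X
  /-- the larger domains -/
  B : ι → Set E
  opn : ∀ i, IsOpen (B i)
  sub : ∀ i, (e i).source ⊆ B i

namespace Dat

section top
variable {E X ι : Type} [TopologicalSpace E] [TopologicalSpace X] (D : Dat E X ι)

/-- the glued space -/
def G : Type := X ⊕ Σ i, ↥(D.B i \ (D.e i).source)

/-- the old part -/
def inl (x : X) : D.G := Sum.inl x

open Classical in
/-- the new parametrisations -/
def cap (i : ι) (y : E) : D.G :=
  if h : y ∈ D.B i \ (D.e i).source then Sum.inr ⟨i, y, h⟩ else D.inl (D.e i y)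

/-- their inverses -/
def cinv (i : ι) : D.G → E := Sum.elim (D.e i).symm fun p => p.2.1

variable {D} {i j : ι} {x : X} {y y' : E} {V : Set D.G}

lemma inl_injective : Function.Injective D.inl := Sum.inl_injective

lemma cap_of_mem (h : y ∈ (D.e i).source) : D.cap i y = D.inl (D.e i y) := dif_neg fun k => k.2 h

lemma cap_of_notMem (h : y ∈ D.B i \ (D.e i).source) : D.cap i y = Sum.inr ⟨i, y, h⟩ := dif_pos h

@[simp] lemma cinv_inl : D.cinv i (D.inl x) = (D.e i).symm x := rfl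

lemma cinv_cap (h : y ∈ D.B i) : D.cinv i (D.cap i y) = y := by
  by_cases k : y ∈ (D.e i).source
  · rw [cap_of_mem k, cinv_inl, (D.e i).left_inv k]
  · rw [cap_of_notMem ⟨h, k⟩]; rfl

lemma cap_eq_inl (h : y ∈ D.B i) : D.cap i y = D.inl x ↔ y ∈ (D.e i).source ∧ D.e i y = x := by
  by_cases k : y ∈ (D.e i).source
  · rw [cap_of_mem k, inl_injective.eq_iff, and_iff_right k]
  · rw [cap_of_notMem ⟨h, k⟩]
    exact iff_of_false Sum.inr_ne_inl fun h => k h.1

lemma cap_eq_cap (h : y ∈ D.B i) (h' : y' ∈ D.B j) (e : D.cap i y = D.cap j y') :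
    i = j ∧ y = y' ∨ y ∈ (D.e i).source ∧ y' ∈ (D.e j).source ∧ D.e i y = D.e j y' := by
  by_cases k : y' ∈ (D.e j).source
  · rw [cap_of_mem k, cap_eq_inl h] at e
    exact .inr ⟨e.1, k, e.2⟩
  · by_cases k' : y ∈ (D.e i).source
    · rw [cap_of_mem k', eq_comm, cap_eq_inl h'] at e
      exact absurd e.1 k
    · rw [cap_of_notMem ⟨h, k'⟩, cap_of_notMem ⟨h', k⟩] at e
      obtain ⟨rfl, e⟩ := Sigma.mk.inj_iff.1 (Sum.inr_injective e)
      exact .inl ⟨rfl, congrArg Subtype.val (eq_of_heq e)⟩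

lemma cases (p : D.G) : (∃ x, p = D.inl x) ∨ ∃ i, ∃ y ∈ D.B i \ (D.e i).source, p = D.cap i y := by
  rcases p with x | ⟨i, y, h⟩
  · exact .inl ⟨x, rfl⟩
  · exact .inr ⟨i, y, h, (cap_of_notMem h).symm⟩

lemma inl_mem_cap {W : Set E} (h : W ⊆ D.B i) :
    D.inl ⁻¹' (D.cap i '' W) = D.e i '' ((D.e i).source ∩ W) := by
  ext x
  exact ⟨fun ⟨y, h1, h2⟩ => ⟨y, ⟨((cap_eq_inl (h h1)).1 h2).1, h1⟩, ((cap_eq_inl (h h1)).1 h2).2⟩,
    fun ⟨y, h1, h2⟩ => ⟨y, h1.2, (cap_eq_inl (h h1.2)).2 ⟨h1.1, h2⟩⟩⟩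

instance : TopologicalSpace D.G where
  IsOpen V := IsOpen (D.inl ⁻¹' V) ∧ ∀ i, IsOpen (D.B i ∩ D.cap i ⁻¹' V)
  isOpen_univ := ⟨isOpen_univ, fun i => by simpa using D.opn i⟩
  isOpen_inter V W h h' := ⟨h.1.inter h'.1, fun i => by
    rw [preimage_inter, inter_inter_distrib_left]; exact (h.2 i).inter (h'.2 i)⟩
  isOpen_sUnion S h := ⟨by rw [preimage_sUnion]; exact isOpen_biUnion fun V k => (h V k).1,
    fun i => by
      rw [preimage_sUnion, inter_iUnion₂]; exact isOpen_biUnion fun V k => (h V k).2 i⟩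

lemma isOpen_iff : IsOpen V ↔ IsOpen (D.inl ⁻¹' V) ∧ ∀ i, IsOpen (D.B i ∩ D.cap i ⁻¹' V) := Iff.rfl

lemma isOpen_of (h : IsOpen (D.inl ⁻¹' V))
    (h' : ∀ y ∈ D.B i \ (D.e i).source, D.cap i y ∉ V) : IsOpen (D.B i ∩ D.cap i ⁻¹' V) := by
  convert (D.e i).isOpen_inter_preimage h using 1
  ext y
  refine ⟨fun k => ?_, fun k => ⟨D.sub i k.1, by rw [mem_preimage, cap_of_mem k.1]; exact k.2⟩⟩
  have h1 : y ∈ (D.e i).source := by_contra fun h1 => h' y ⟨k.1, h1⟩ k.2
  exact ⟨h1, by have := k.2; rwa [mem_preimage, cap_of_mem h1] at this⟩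

variable (D) in
lemma isOpenEmbedding_inl : IsOpenEmbedding D.inl :=
  .of_continuous_injective_isOpenMap (continuous_def.2 fun _ h => h.1) inl_injective fun W hW => by
    have h : IsOpen (D.inl ⁻¹' (D.inl '' W)) := by rwa [preimage_image_eq _ inl_injective]
    exact ⟨h, fun i => isOpen_of h fun y hy ⟨x, _, k⟩ => hy.2 ((cap_eq_inl hy.1).1 k.symm).1⟩

lemma isOpen_cap_image {W : Set E} (h : W ⊆ D.B i) (hW : IsOpen W) : IsOpen (D.cap i '' W) := by
  have h1 : IsOpen (D.inl ⁻¹' (D.cap i '' W)) := by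
    rw [inl_mem_cap h]; exact (D.e i).isOpen_image_source_inter hW
  refine ⟨h1, fun j => ?_⟩
  by_cases k : j = i
  · subst k
    convert hW using 1
    ext y
    refine ⟨fun ⟨a, y', b, c⟩ => ?_, fun a => ⟨h a, y, a, rfl⟩⟩
    rwa [← cinv_cap a, ← c, cinv_cap (h b)]
  · exact isOpen_of h1 fun y hy ⟨y', a, b⟩ =>
      (cap_eq_cap (h a) hy.1 b).elim (fun c => k c.1.symm) fun c => hy.2 c.2.1

variable (D) in
/-- the new parametrisations as homeomorphisms onto open sets -/
def capH (i : ι) : OpenPartialHomeomorph E D.G :=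
  OpenPartialHomeomorph.ofContinuousOpenRestrict
    ⟨D.cap i, D.cinv i, D.B i, D.cap i '' D.B i, fun _ h => mem_image_of_mem _ h,
      by rintro _ ⟨y, h, rfl⟩; rwa [cinv_cap h], fun _ h => cinv_cap h,
      by rintro _ ⟨y, h, rfl⟩; rw [cinv_cap h]⟩
    ((continuousOn_open_iff (D.opn i)).2 fun _ h => h.2 i)
    (fun W hW => by
      have := isOpen_cap_image (i := i) (Subtype.coe_image_subset _ W)
        ((D.opn i).isOpenMap_subtype_val W hW)
      rwa [image_image] at this) (D.opn i)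

@[simp] lemma capH_coe : ⇑(D.capH i) = D.cap i := rfl
@[simp] lemma capH_symm_coe : ⇑(D.capH i).symm = D.cinv i := rfl
@[simp] lemma capH_source : (D.capH i).source = D.B i := rfl
@[simp] lemma capH_target : (D.capH i).target = D.cap i '' D.B i := rfl

lemma inl_mem_target : D.inl x ∈ D.cap i '' D.B i ↔ x ∈ (D.e i).target := by
  rw [← mem_preimage, inl_mem_cap subset_rfl, inter_eq_left.2 (D.sub i),
    (D.e i).image_source_eq_target]

lemma continuousOn_cap (i : ι) : ContinuousOn (D.cap i) (D.B i) := (D.capH i).continuousOn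

lemma continuous_of {Z : Type*} [TopologicalSpace Z] {f : D.G → Z} (h : Continuous (f ∘ D.inl))
    (h' : ∀ i, ContinuousOn (f ∘ D.cap i) (D.B i)) : Continuous f :=
  continuous_def.2 fun _ hV => ⟨hV.preimage h, fun i => (h' i).isOpen_inter_preimage (D.opn i) hV⟩

variable [ChartedSpace E X] [Nonempty E]

instance : ChartedSpace E D.G where
  atlas := (fun c => c.lift_openEmbedding D.isOpenEmbedding_inl) '' atlas E X ∪
    range fun i => (D.capH i).symm
  chartAt := Sum.elim (fun x => (chartAt E x).lift_openEmbedding D.isOpenEmbedding_inl)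
    fun p => (D.capH p.1).symm
  mem_chart_source := by
    rintro (x | ⟨i, y, h⟩)
    · exact mem_image_of_mem D.inl (mem_chart_source E x)
    · exact ⟨y, h.1, cap_of_notMem h⟩
  chart_mem_atlas := by
    rintro (x | ⟨i, y, h⟩)
    · exact .inl (mem_image_of_mem _ (chart_mem_atlas E x))
    · exact .inr ⟨i, rfl⟩

lemma chartAt_inl (x : X) :
    chartAt E (D.inl x) = (chartAt E x).lift_openEmbedding D.isOpenEmbedding_inl := rfl

lemma chartAt_cap (h : y ∈ D.B i \ (D.e i).source) : chartAt E (D.cap i y) = (D.capH i).symm := by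
  rw [cap_of_notMem h]; rfl

lemma chart_inl (x x' : X) : chartAt E (D.inl x) (D.inl x') = chartAt E x x' :=
  OpenPartialHomeomorph.lift_openEmbedding_apply (chartAt E x) D.isOpenEmbedding_inl

lemma chart_inl_symm (x : X) (z : E) :
    (chartAt E (D.inl x)).symm z = D.inl ((chartAt E x).symm z) := rfl

lemma capH_mem_atlas (i : ι) : (D.capH i).symm ∈ atlas E D.G := .inr ⟨i, rfl⟩

end top

variable {E X ι : Type} [NormedAddCommGroup E] [NormedSpace ℝ E] [TopologicalSpace X]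
  [ChartedSpace E X] {D : Dat E X ι} {n : WithTop ℕ∞} [IsManifold 𝓘(ℝ, E) n X]

lemma exists_chart (hD : ∀ i, (D.e i).symm ∈ IsManifold.maximalAtlas 𝓘(ℝ, E) n X)
    {c : OpenPartialHomeomorph D.G E} (hc : c ∈ atlas E D.G) :
    ∃ c' ∈ IsManifold.maximalAtlas 𝓘(ℝ, E) n X, (∀ x, c (D.inl x) = c' x) ∧
      (∀ x, D.inl x ∈ c.source ↔ x ∈ c'.source) ∧ ∀ z ∈ c'.target, c.symm z = D.inl (c'.symm z) := by
  rcases hc with ⟨c, hc, rfl⟩ | ⟨i, rfl⟩
  · exact ⟨c, IsManifold.subset_maximalAtlas hc,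
      fun _ => OpenPartialHomeomorph.lift_openEmbedding_apply _ _,
      fun x => inl_injective.mem_set_image, fun _ _ => rfl⟩
  · exact ⟨_, hD i, fun _ => rfl, fun _ => inl_mem_target, fun z hz => cap_of_mem hz⟩

theorem isManifold (hD : ∀ i, (D.e i).symm ∈ IsManifold.maximalAtlas 𝓘(ℝ, E) n X) :
    IsManifold 𝓘(ℝ, E) n D.G := by
  refine isManifold_of_contDiffOn _ _ _ fun c c' hc hc' z hz => ContDiffAt.contDiffWithinAt ?_
  simp only [mfld_simps] at hz ⊢
  rcases cases (c.symm z) with ⟨x, h⟩ | ⟨i, y, hy, h⟩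
  · obtain ⟨a, a0, a1, a2, a3⟩ := exists_chart hD hc
    obtain ⟨b, b0, b1, b2, -⟩ := exists_chart hD hc'
    have h1 := (a2 x).1 (h ▸ c.map_target hz.1)
    have h2 : z = a x := by rw [← a1, ← h, c.right_inv hz.1]
    have h3 : z ∈ (a.symm ≫ₕ b).source := by
      rw [h2]
      exact ⟨a.map_source h1, by simpa [a.left_inv h1] using (b2 x).1 (h ▸ hz.2)⟩
    have h4 := (IsManifold.compatible_of_mem_maximalAtlas a0 b0).1
    simp only [contDiffPregroupoid, mfld_simps] at h4 h3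
    refine (h4.contDiffAt ((a.symm.isOpen_inter_preimage b.open_source).mem_nhds
      h3)).congr_of_eventuallyEq ?_
    filter_upwards [a.open_target.mem_nhds h3.1] with u hu
    simp only [Function.comp, a3 u hu, b1]
  · have k : ∀ c ∈ atlas E D.G, D.cap i y ∈ c.source → c = (D.capH i).symm := by
      rintro _ (⟨c, -, rfl⟩ | ⟨j, rfl⟩) ⟨u, h1, h2⟩
      · exact absurd ((cap_eq_inl hy.1).1 h2.symm).1 hy.2
      · rcases cap_eq_cap h1 hy.1 h2 with ⟨rfl, -⟩ | h3
        · rfl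
        · exact absurd h3.2.1 hy.2
    obtain rfl := (k c' hc' (h ▸ hz.2)).trans (k c hc (h ▸ c.map_target hz.1)).symm
    refine contDiffAt_id.congr_of_eventuallyEq ?_
    filter_upwards [c'.open_target.mem_nhds hz.1] with u hu using c'.right_inv hu

omit [IsManifold 𝓘(ℝ, E) n X] in
lemma written_inl (x : X) :
    writtenInExtChartAt 𝓘(ℝ, E) 𝓘(ℝ, E) x D.inl =ᶠ[𝓝 (chartAt E x x)] id := by
  filter_upwards [(chartAt E x).open_target.mem_nhds (mem_chart_target E x)] with u hu
  simp only [writtenInExtChartAt, mfld_simps, chart_inl, (chartAt E x).right_inv hu]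

omit [IsManifold 𝓘(ℝ, E) n X] in
lemma hasMFDerivAt_inl (x : X) :
    HasMFDerivAt 𝓘(ℝ, E) 𝓘(ℝ, E) D.inl x (ContinuousLinearMap.id ℝ E) :=
  ⟨D.isOpenEmbedding_inl.continuous.continuousAt, by
    have := ((hasFDerivAt_id (𝕜 := ℝ) _).congr_of_eventuallyEq
      (written_inl (D := D) x)).hasFDerivWithinAt (s := univ)
    simp only [mfld_simps] at this ⊢
    exact this⟩

omit [IsManifold 𝓘(ℝ, E) n X] in
lemma contMDiff_inl : ContMDiff 𝓘(ℝ, E) 𝓘(ℝ, E) n D.inl := fun x =>
  contMDiffAt_iff.2 ⟨D.isOpenEmbedding_inl.continuous.continuousAt, by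
    simpa only [mfld_simps] using
      (contDiffAt_id.congr_of_eventuallyEq (written_inl x)).contDiffWithinAt⟩

end Dat

end Vale.Agent.P216SG
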