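import Vale.Agent.P216SG.Defs
import Vale.Agent.P216SG.Glue
import Vale.Agent.P216B.Mid
import Mathlib.Analysis.Normed.Module.Connected

/-! # One cut: topology of the sides and of the capped manifold, existence -/

open scoped Manifold ContDiff Topology
open Set Metric Real Filter

set_option linter.unusedSectionVars false

noncomputable section

namespace Vale.Agent.P216SG

open Vale.Agent.P216R

variable {M : Type} [TopologicalSpace M] [ChartedSpace E3 M]
  {M' : Type} [TopologicalSpace M'] [ChartedSpace E3 M']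
  {U K : Set M} {U' : Set M'} {φ : E3 → M} {ψ : E3 → M'} {i : M → M'} {A B : Set E3}
  {a b c L : ℝ} {x y : E3}

lemma isOpen_ann : IsOpen (ann a b) :=
  (isOpen_lt continuous_const continuous_norm).inter (isOpen_lt continuous_norm continuous_const)

lemma isOpen_anl : IsOpen (anl L) := isOpen_ann

lemma ann_mono {a' b' : ℝ} (ha : a' ≤ a) (hb : b ≤ b') : ann a b ⊆ ann a' b' :=
  fun _ h => ⟨ha.trans_lt h.1, h.2.trans_le hb⟩

lemma anl_mono {L' : ℝ} (h : L ≤ L') : anl L ⊆ anl L' :=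
  ann_mono (exp_le_exp.2 (neg_le_neg h)) (exp_le_exp.2 h)

lemma ann_out (hL : 0 ≤ L) : ann 1 (exp L) ⊆ anl L :=
  ann_mono (exp_le_one_iff.2 (neg_nonpos.2 hL)) le_rfl

lemma sphere_sub_anl (hL : 0 < L) : sphere (0 : E3) 1 ⊆ anl L := fun x hx => by
  rw [mem_sphere_zero_iff_norm] at hx
  exact ⟨hx ▸ exp_lt_one_iff.2 (neg_lt_zero.2 hL), hx ▸ one_lt_exp_iff.2 hL⟩

lemma anl_pos (h : x ∈ anl L) : 0 < ‖x‖ := (exp_pos _).trans h.1

lemma mem_anl : x ∈ anl L ↔ x ≠ 0 ∧ |log ‖x‖| < L := by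
  refine ⟨fun h => ⟨norm_pos_iff.1 (anl_pos h), abs_lt.2
    ⟨(lt_log_iff_exp_lt (anl_pos h)).2 h.1, (log_lt_iff_lt_exp (anl_pos h)).2 h.2⟩⟩, fun h => ?_⟩
  have := norm_pos_iff.2 h.1
  exact ⟨(lt_log_iff_exp_lt this).1 (abs_lt.1 h.2).1, (log_lt_iff_lt_exp this).1 (abs_lt.1 h.2).2⟩

lemma ann_sub_ball : ann a b ⊆ ball 0 b := fun _ h => mem_ball_zero_iff.2 h.2

lemma preconn_sphere (r : ℝ) : IsPreconnected (sphere (0 : E3) r) :=
  isPreconnected_sphere (by rw [← Module.finrank_eq_rank]; simp) _ _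

lemma preconn_ann (ha : 0 ≤ a) : IsPreconnected (ann a b) := by
  have : ann a b = (fun p : ℝ × E3 => p.1 • p.2) '' Ioo a b ×ˢ sphere 0 1 := by
    ext x
    refine ⟨fun h => ⟨(‖x‖, ‖x‖⁻¹ • x), ⟨h, ?_⟩, smul_inv_smul₀ (ha.trans_lt h.1).ne' x⟩, ?_⟩
    · simp [norm_smul, inv_mul_cancel₀ (ha.trans_lt h.1).ne']
    · rintro ⟨⟨r, u⟩, ⟨h1, h2⟩, rfl⟩
      have : ‖r • u‖ = r := by
        rw [norm_smul, mem_sphere_zero_iff_norm.1 h2, mul_one, norm_of_nonneg (ha.trans h1.1.le)]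
      exact ⟨this.symm ▸ h1.1, this.symm ▸ h1.2⟩
  rw [this]
  exact (isPreconnected_Ioo.prod (preconn_sphere 1)).image _ (by fun_prop)

lemma exists_nrm (hc : 0 ≤ c) : ∃ x : E3, ‖x‖ = c := exists_norm_eq E3 hc

/-- closed annulus -/
def cann (a b : ℝ) : Set E3 := {x | a ≤ ‖x‖ ∧ ‖x‖ ≤ b}

lemma isCompact_cann : IsCompact (cann a b) :=
  (isCompact_closedBall (0 : E3) b).of_isClosed_subset
    ((isClosed_le continuous_const continuous_norm).inter
      (isClosed_le continuous_norm continuous_const)) fun _ h => mem_closedBall_zero_iff.2 h.2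

omit [ChartedSpace E3 M] in
lemma met_union' {E : Type} [NormedAddCommGroup E] [NormedSpace ℝ E] [ChartedSpace E M]
    {g : Ten E M} {V : Set M} (hU : Met g U) (hV : Met g V) : Met g (U ∪ V) := by
  refine ⟨hU.isOpen.union hV.isOpen, fun x hx => hx.elim (hU.symm x) (hV.symm x),
    fun x hx => hx.elim (hU.pos x) (hV.pos x), fun a u hu => ?_⟩
  rcases hu.2 with h | h
  · exact ((hU.smooth a).contDiffAt ((isOpen_dom a hU.isOpen).mem_nhds ⟨hu.1, h⟩)).contDiffWithinAt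
  · exact ((hV.smooth a).contDiffAt ((isOpen_dom a hV.isOpen).mem_nhds ⟨hu.1, h⟩)).contDiffWithinAt

lemma hs_image [IsManifold 𝓘(ℝ, E3) ∞ M] [IsManifold 𝓘(ℝ, E3) ∞ M'] (h : LD E3 i U)
    (hi : InjOn i U) (hs : Hs U) : Hs (i '' U) := by
  rintro _ ⟨x, hx, rfl⟩ _ ⟨y, hy, rfl⟩ k
  obtain ⟨s, h1, t, h2, h3⟩ := Filter.disjoint_iff.1 (hs hx hy fun e => k (e ▸ rfl))
  rw [← h.map_nhds hx, ← h.map_nhds hy]
  refine Filter.disjoint_iff.2 ⟨_, image_mem_map (inter_mem h1 (h.isOpen.mem_nhds hx)), _,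
    image_mem_map (inter_mem h2 (h.isOpen.mem_nhds hy)), ?_⟩
  exact disjoint_image_image fun a ha b hb e => disjoint_left.1 h3 ha.1 (hi ha.2 hb.2 e ▸ hb.1)

namespace Emb

lemma isOpen (h : Emb φ A U) : IsOpen A := h.ld.isOpen

lemma mono (h : Emb φ A U) (hB : IsOpen B) (hBA : B ⊆ A) : Emb φ B U :=
  ⟨h.ld.mono hB hBA, h.inj.mono hBA, h.mem.mono_left hBA⟩

lemma of_mem (h : Emb φ A U) {V : Set M} (hV : MapsTo φ A V) : Emb φ A V := ⟨h.ld, h.inj, hV⟩

lemma cont (h : Emb φ A U) : ContinuousOn φ A := h.ld.smooth.continuousOn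

lemma map (h : Emb φ A U) (hi : LD E3 i U) (hi' : InjOn i U) (hm : MapsTo i U U') :
    Emb (i ∘ φ) A U' := ⟨hi.comp h.ld h.mem, hi'.comp h.inj h.mem, hm.comp h.mem⟩

lemma comp (h : Emb φ A U) {τ : E3 → E3} (k : Emb τ B A) : Emb (φ ∘ τ) B U :=
  k.map h.ld h.inj h.mem

lemma mem_image (h : Emb φ A U) (hB : B ⊆ A) (hx : x ∈ A) : φ x ∈ φ '' B ↔ x ∈ B :=
  h.inj.mem_image_iff hB hx

lemma isCompact (h : Emb φ A U) (hB : IsCompact B) (hBA : B ⊆ A) : IsCompact (φ '' B) :=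
  hB.image_of_continuousOn (h.cont.mono hBA)

lemma image_sub (h : Emb φ A U) (hBA : B ⊆ A) : φ '' B ⊆ U := (h.mem.mono_left hBA).image_subset

lemma preconn (h : Emb φ A U) (hB : IsPreconnected B) (hBA : B ⊆ A) : IsPreconnected (φ '' B) :=
  hB.image _ (h.cont.mono hBA)

lemma isOpen_diff (h : Emb φ A U) (hs : Hs U) (hU : IsOpen U) (hB : IsCompact B) (hBA : B ⊆ A) :
    IsOpen (U \ φ '' B) := hs.isOpen_diff hU (h.isCompact hB hBA) (h.image_sub hBA)

variable [IsManifold 𝓘(ℝ, E3) ∞ M]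

lemma isOpen_image (h : Emb φ A U) (hB : IsOpen B) (hBA : B ⊆ A) : IsOpen (φ '' B) :=
  h.ld.isOpen_image hB hBA

lemma hs (h : Emb φ A U) : Hs (φ '' A) := hs_image h.ld h.inj (hs_of_t2 A)

/-- an embedding as a partial homeomorphism -/
def par (h : Emb φ A U) : OpenPartialHomeomorph E3 M where
  toPartialEquiv := h.inj.toPartialEquiv φ A
  open_source := h.isOpen
  open_target := h.isOpen_image h.isOpen subset_rfl
  continuousOn_toFun := h.cont
  continuousOn_invFun := (h.ld.inverse h.inj).smooth.continuousOn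

lemma par_mem (h : Emb φ A U) : h.par.symm ∈ IsManifold.maximalAtlas 𝓘(ℝ, E3) ∞ M :=
  h.par.symm.mem_maximalAtlas_of_contMDiffOn (h.ld.inverse h.inj).smooth h.ld.smooth

end Emb

namespace Side

lemma mono (h : Side U φ L K) {L' : ℝ} (hL : L' ≤ L) : Side U φ L' K :=
  ⟨h.isOpen, h.sub, fun x hx => h.mem x (anl_mono hL hx), h.other⟩

lemma out (h : Side U φ L K) (hL : 0 ≤ L) (hx : x ∈ ann 1 (exp L)) : φ x ∈ K :=
  (h.mem x (ann_out hL hx)).2 hx.1

lemma notMem (h : Side U φ L K) (hL : 0 < L) {p : M} (hp : p ∈ φ '' sphere 0 1) : p ∉ K := by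
  obtain ⟨x, hx, rfl⟩ := hp
  rw [h.mem x (sphere_sub_anl hL hx), mem_sphere_zero_iff_norm.1 hx]
  exact lt_irrefl _

/-- a connected set that misses the sphere lies on one side -/
lemma subset_or (h : Side U φ L K) {S : Set M} (hS : IsPreconnected S) (hU : S ⊆ U)
    (hd : Disjoint S (φ '' sphere 0 1)) : S ⊆ K ∨ Disjoint S K := by
  refine (hS.subset_or_subset h.isOpen h.other
    (disjoint_left.2 fun p h1 h2 => h2.2 (.inl h1)) fun p hp => ?_).imp id
    fun k => disjoint_left.2 fun p h1 h2 => (k h1).2 (.inl h2)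
  by_cases k : p ∈ K
  · exact .inl k
  · exact .inr ⟨hU hp, fun k' => k'.elim k (disjoint_left.1 hd hp)⟩

variable [IsManifold 𝓘(ℝ, E3) ∞ M]

lemma preconn (h : Side U φ L K) (he : Emb φ (anl L) U) (hL : 0 < L) (hU : IsPreconnected U) :
    IsPreconnected K := by
  have hH := he.preconn (preconn_ann zero_le_one) (ann_out hL.le)
  have hK : φ '' ann 1 (exp L) ⊆ K := image_subset_iff.2 fun x hx => h.out hL.le hx
  have key : ∀ u v, IsOpen u → IsOpen v → K ⊆ u ∪ v → K ∩ (u ∩ v) = ∅ →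
      φ '' ann 1 (exp L) ⊆ u → K ⊆ u := fun u v hu hv h1 h2 h3 => by
    have h4 : ∀ p ∈ K, p ∈ u → p ∉ v := fun p a b c => (h2.subset ⟨a, b, c⟩).elim
    obtain ⟨x, hx⟩ := exists_nrm zero_le_one
    have hx' := sphere_sub_anl hL (mem_sphere_zero_iff_norm.2 hx)
    have := hU.subset_left_of_subset_union (((h.isOpen.inter hu).union h.other).union
      (he.isOpen_image he.isOpen subset_rfl)) (h.isOpen.inter hv) ?_ ?_
      ⟨φ x, he.mem hx', .inr ⟨x, hx', rfl⟩⟩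
    · intro p hp
      rcases this (h.sub hp) with (k | k) | ⟨x, hx, rfl⟩
      exacts [k.2, (k.2 (.inl hp)).elim, h3 ⟨x, ⟨(h.mem x hx).1 hp, hx.2⟩, rfl⟩]
    · refine disjoint_left.2 fun p k k' => ?_
      rcases k with (k | k) | ⟨x, hx, rfl⟩
      exacts [h4 p k.1 k.2 k'.2, k.2 (.inl k'.1),
        h4 _ k'.1 (h3 ⟨x, ⟨(h.mem x hx).1 k'.1, hx.2⟩, rfl⟩) k'.2]
    · intro p hp
      by_cases k : p ∈ K
      · exact (h1 k).imp (fun a => .inl (.inl ⟨k, a⟩)) fun a => ⟨k, a⟩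
      · by_cases k' : p ∈ φ '' sphere 0 1
        · exact .inl (.inr (image_mono (sphere_sub_anl hL) k'))
        · exact .inl (.inl (.inr ⟨hp, fun a => a.elim k k'⟩))
  refine isPreconnected_iff_subset_of_disjoint.2 fun u v hu hv h1 h2 => ?_
  exact (isPreconnected_iff_subset_of_disjoint.1 hH u v hu hv (hK.trans h1)
    (subset_eq_empty (inter_subset_inter_left _ hK) h2)).imp (key u v hu hv h1 h2)
    (key v u hv hu (union_comm u v ▸ h1) (inter_comm u v ▸ h2))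

/-- the kept side without an open collar is compact -/
lemma isCompact (h : Side U φ L K) (he : Emb φ (anl L) U) (hU : IsCompact U) (hc : 1 < c)
    (hL : c ≤ exp L) : IsCompact (K \ φ '' ann 1 c) := by
  have h0 : 0 < L := one_lt_exp_iff.1 (hc.trans_le hL)
  have h1 : ann (exp (-L)) c ⊆ anl L := ann_mono le_rfl hL
  convert hU.diff (h.other.union (he.isOpen_image isOpen_ann h1)) using 1
  ext p
  refine ⟨fun k => ⟨h.sub k.1, ?_⟩, fun k => ⟨by_contra fun a => k.2 ?_, fun a => k.2 (.inr ?_)⟩⟩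
  · rintro (a | ⟨x, hx, rfl⟩)
    exacts [a.2 (.inl k.1), k.2 ⟨x, ⟨(h.mem x (h1 hx)).1 k.1, hx.2⟩, rfl⟩]
  · by_cases b : p ∈ φ '' sphere 0 1
    · obtain ⟨x, hx, rfl⟩ := b
      exact .inr ⟨x, ⟨(sphere_sub_anl h0 hx).1, mem_sphere_zero_iff_norm.1 hx ▸ hc⟩, rfl⟩
    · exact .inl ⟨k.1, fun c => c.elim a b⟩
  · exact image_mono (ann_mono (exp_le_one_iff.2 (neg_nonpos.2 h0.le)) le_rfl) a

end Side

namespace IsCut

lemma mem (h : IsCut U φ L K U' i ψ) : MapsTo i K U' := fun _ k =>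
  h.cover ▸ .inl (mem_image_of_mem i k)

lemma cover' (h : IsCut U φ L K U' i ψ) (hL : 0 < L) : U' = i '' K ∪ ψ '' ball 0 (exp L) :=
  subset_antisymm (h.cover.subset.trans (union_subset_union_right _ (image_mono
    (closedBall_subset_ball (one_lt_exp_iff.2 hL)))))
    (union_subset h.mem.image_subset (h.cap.image_sub subset_rfl))

lemma cont (h : IsCut U φ L K U' i ψ) : ContinuousOn i U := h.ld.smooth.continuousOn

lemma eq_iff (h : IsCut U φ L K U' i ψ) (he : Emb φ (anl L) U) (hL : 0 < L)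
    (hy : y ∈ ball 0 (exp L)) {p : M} (hp : p ∈ U) : ψ y = i p ↔ 1 < ‖y‖ ∧ φ y = p := by
  refine ⟨fun k => ?_, fun k => by rw [h.eq y ⟨k.1, mem_ball_zero_iff.1 hy⟩, k.2]⟩
  have : y ∈ ann 1 (exp L) := ⟨not_le.1 fun a =>
    h.new y (mem_closedBall_zero_iff.2 a) ⟨p, hp, k.symm⟩, mem_ball_zero_iff.1 hy⟩
  exact ⟨this.1, h.inj (he.mem (ann_out hL.le this)) hp ((h.eq y this).symm.trans k)⟩

lemma mem_iff (h : IsCut U φ L K U' i ψ) (hK : K ⊆ U) {p : M} (hp : p ∈ U) :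
    i p ∈ U' ↔ p ∈ K := by
  refine ⟨fun k => ?_, fun k => h.mem k⟩
  rcases h.cover.subset k with ⟨q, a, b⟩ | ⟨y, a, b⟩
  exacts [h.inj (hK a) hp b ▸ a, (h.new y a ⟨p, hp, b.symm⟩).elim]

lemma mono (h : IsCut U φ L K U' i ψ) {L' : ℝ} (hL : L' ≤ L) : IsCut U φ L' K U' i ψ :=
  ⟨h.ld, h.inj, h.cap.mono isOpen_ball (ball_subset_ball (exp_le_exp.2 hL)),
    fun x hx => h.eq x (ann_mono le_rfl (exp_le_exp.2 hL) hx), h.new, h.cover⟩

variable [IsManifold 𝓘(ℝ, E3) ∞ M] [IsManifold 𝓘(ℝ, E3) ∞ M']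

lemma isOpen (h : IsCut U φ L K U' i ψ) (hK : Side U φ L K) (hL : 0 < L) : IsOpen U' :=
  h.cover' hL ▸ (h.ld.isOpen_image hK.isOpen hK.sub).union
    (h.cap.isOpen_image isOpen_ball subset_rfl)

lemma isCompact (h : IsCut U φ L K U' i ψ) (hK : Side U φ L K) (he : Emb φ (anl L) U)
    (hL : 0 < L) (hU : IsCompact U) : IsCompact U' := by
  obtain ⟨c, h1, h2⟩ := exists_between (one_lt_exp_iff.2 hL)
  convert ((hK.isCompact he hU h1 h2.le).image_of_continuousOn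
    (h.cont.mono (sdiff_subset.trans hK.sub))).union
    (h.cap.isCompact (isCompact_closedBall 0 c) (closedBall_subset_ball h2)) using 1
  refine subset_antisymm (h.cover.subset.trans (union_subset ?_ ?_))
    (union_subset ((image_mono sdiff_subset).trans h.mem.image_subset)
      (h.cap.image_sub (closedBall_subset_ball h2)))
  · rintro _ ⟨p, hp, rfl⟩
    by_cases k : p ∈ φ '' ann 1 c
    · obtain ⟨x, hx, rfl⟩ := k
      exact .inr ⟨x, mem_closedBall_zero_iff.2 hx.2.le, h.eq x ⟨hx.1, hx.2.trans h2⟩⟩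
    · exact .inl ⟨p, ⟨hp, k⟩, rfl⟩
  · exact (image_mono (closedBall_subset_closedBall h1.le)).trans subset_union_right

lemma preconn (h : IsCut U φ L K U' i ψ) (hK : Side U φ L K) (he : Emb φ (anl L) U) (hL : 0 < L)
    (hU : IsPreconnected U) : IsPreconnected U' := by
  obtain ⟨c, h1, h2⟩ := exists_between (one_lt_exp_iff.2 hL)
  obtain ⟨x, rfl⟩ := exists_nrm (zero_le_one.trans h1.le)
  rw [h.cover' hL]
  exact ((hK.preconn he hL hU).image i (h.cont.mono hK.sub)).union (ψ x)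
    ⟨φ x, hK.out hL.le ⟨h1, h2⟩, (h.eq x ⟨h1, h2⟩).symm⟩ ⟨x, mem_ball_zero_iff.2 h2, rfl⟩
    (h.cap.preconn (convex_ball _ _).isPreconnected subset_rfl)

lemma hs (h : IsCut U φ L K U' i ψ) (hK : Side U φ L K) (he : Emb φ (anl L) U) (hL : 0 < L)
    (hs : Hs U) : Hs U' := by
  obtain ⟨c, h1, h2⟩ := exists_between (one_lt_exp_iff.2 hL)
  have hc : cann 1 c ⊆ anl L := fun x hx =>
    ⟨(exp_lt_one_iff.2 (neg_lt_zero.2 hL)).trans_le hx.1, hx.2.trans_lt h2⟩
  have key : ∀ p ∈ i '' K, p ∉ ψ '' ball 0 (exp L) → ∀ q ∈ ψ '' closedBall 0 1,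
      Disjoint (𝓝 p) (𝓝 q) := by
    rintro _ ⟨p, hp, rfl⟩ k _ ⟨y, hy, rfl⟩
    refine Filter.disjoint_iff.2 ⟨_, (h.ld.isOpen_image (he.isOpen_diff hs h.ld.isOpen
      isCompact_cann hc) sdiff_subset).mem_nhds ⟨p, ⟨hK.sub hp, ?_⟩, rfl⟩, _,
      (h.cap.isOpen_image isOpen_ball (ball_subset_ball h2.le)).mem_nhds
        ⟨y, closedBall_subset_ball h1 hy, rfl⟩, ?_⟩
    · rintro ⟨x, hx, rfl⟩
      exact k ⟨x, mem_ball_zero_iff.2 (hc hx).2, h.eq x ⟨(hK.mem x (hc hx)).1 hp, (hc hx).2⟩⟩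
    · rw [disjoint_left]
      rintro _ ⟨q, hq, rfl⟩ ⟨z, hz, e⟩
      have := (h.eq_iff he hL (ball_subset_ball h2.le hz) hq.1).1 e
      exact hq.2 ⟨z, ⟨this.1.le, (mem_ball_zero_iff.1 hz).le⟩, this.2⟩
  have hb := image_mono (f := ψ) (closedBall_subset_ball (x := 0) (h1.trans h2))
  intro p hp q hq hne
  by_cases a : p ∈ ψ '' ball 0 (exp L) <;> by_cases b : q ∈ ψ '' ball 0 (exp L)
  · exact h.cap.hs a b hne
  all_goals
    rcases h.cover.subset hp with a' | a' <;> rcases h.cover.subset hq with b' | b'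
    · exact hs_image h.ld h.inj hs (image_mono hK.sub a') (image_mono hK.sub b') hne
    · first | exact (b (hb b')).elim | exact key p a' a q b'
    · first | exact (a (hb a')).elim | exact (key q b' b p a').symm
    · first | exact (a (hb a')).elim | exact (b (hb b')).elim

/-- a metric that is new only on the closed unit ball of the cap -/
lemma exists_ten (h : IsCut U φ L K U' i ψ) (he : Emb φ (anl L) U) (hL : 0 < L) (g : Ten E3 M')
    {G : E3 → Bil E3} (hG : EqOn G (comap φ (comap i g)) (ann 1 (exp L))) :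
    ∃ g' : Ten E3 M', (∀ p ∉ ψ '' closedBall 0 1, g' p = g p) ∧
      EqOn (comap ψ g') G (ball 0 (exp L)) := by
  classical
  refine ⟨(ψ '' closedBall 0 1).piecewise (comap (Function.invFunOn ψ (ball 0 (exp L))) G) g,
    fun p hp => piecewise_eq_of_notMem _ _ _ hp, fun x hx => ?_⟩
  by_cases k : ψ x ∈ ψ '' closedBall 0 1
  · have e : Function.invFunOn ψ (ball 0 (exp L)) ∘ ψ =ᶠ[𝓝 x] id :=
      (isOpen_ball.eventually_mem hx).mono fun y hy => h.cap.inj.leftInvOn_invFunOn hy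
    rw [comap_congr_right ψ (piecewise_eq_of_mem _ _ _ k), comap_comp _
      ((h.cap.ld.inverse h.cap.inj).md (mem_image_of_mem ψ hx)) (h.cap.ld.md hx),
      comap_congr _ e, P216R.comap_id]
  · have k' : x ∈ ann 1 (exp L) :=
      ⟨not_le.1 fun a => k ⟨x, mem_closedBall_zero_iff.2 a, rfl⟩, mem_ball_zero_iff.1 hx⟩
    have k2 := ann_out hL.le k'
    rw [comap_congr_right ψ (piecewise_eq_of_notMem _ _ _ k), hG k',
      comap_comp _ (h.ld.md (he.mem k2)) (he.ld.md k2)]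
    exact comap_congr _ ((isOpen_ann.eventually_mem k').mono fun y hy => h.eq y hy)

lemma met (h : IsCut U φ L K U' i ψ) (hL : 0 < L) (hK : K ⊆ U) {g' : Ten E3 M'}
    (h1 : Met (comap i g') K) (h2 : Met (comap ψ g') (ball 0 (exp L))) : Met g' U' :=
  h.cover' hL ▸ met_union' (met_of_comap (h.ld.mono h1.isOpen hK) h1) (met_of_comap h.cap.ld h2)

end IsCut

/-- existence of the capped manifold, with any metric on the cap that fits -/
theorem exists_cut [IsManifold 𝓘(ℝ, E3) ∞ M] (hK : Side U φ L K) (he : Emb φ (anl L) U)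
    (hU : IsOpen U) (hL : 0 < L) (g : Ten E3 M) {G : E3 → Bil E3}
    (hG : EqOn G (comap φ g) (ann 1 (exp L))) :
    ∃ (M' : Type) (_ : TopologicalSpace M') (_ : ChartedSpace E3 M')
      (_ : IsManifold 𝓘(ℝ, E3) ∞ M') (U' : Set M') (i : M → M') (ψ : E3 → M') (g' : Ten E3 M'),
      IsCut U φ L K U' i ψ ∧ LD E3 i univ ∧ Function.Injective i ∧ comap i g' = g ∧
        EqOn (comap ψ g') G (ball 0 (exp L)) := by
  have h1 := he.mono isOpen_ann (ann_out hL.le)
  let D : Dat E3 M Unit := ⟨fun _ => h1.par, fun _ => ball 0 (exp L), fun _ => isOpen_ball,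
    fun _ => ann_sub_ball⟩
  have := D.isManifold fun _ => h1.par_mem
  have h2 : ∀ x, md E3 D.inl x = .id ℝ E3 := fun x => (Dat.hasMFDerivAt_inl x).mfderiv
  have h3 : LD E3 D.inl univ := ⟨isOpen_univ, Dat.contMDiff_inl.contMDiffOn, fun x _ => by
    rw [h2]; exact Function.injective_id⟩
  have h4 : ∀ x ∈ closedBall (0 : E3) 1, x ∈ D.B () \ (D.e ()).source := fun x hx =>
    ⟨closedBall_subset_ball (one_lt_exp_iff.2 hL) hx,
      fun k => k.1.not_ge (mem_closedBall_zero_iff.1 hx)⟩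
  have h5 : LD E3 (D.cap ()) (ball 0 (exp L)) := by
    have := ld_symm (E := E3) (D.cap () 0)
    rwa [Dat.chartAt_cap (h4 0 (mem_closedBall_self zero_le_one))] at this
  let g' : Ten E3 D.G := Sum.elim g fun p => G p.2.1
  have h6 : comap D.inl g' = g := by
    ext x v w
    rw [comap_apply, h2]; rfl
  refine ⟨D.G, inferInstance, inferInstance, inferInstance,
    D.inl '' K ∪ D.cap () '' closedBall 0 1, D.inl, D.cap (), g',
    ⟨h3.mono hU (subset_univ _), Dat.inl_injective.injOn,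
      ⟨h5, (D.capH ()).injOn, fun x hx => ?_⟩, fun x hx => Dat.cap_of_mem hx, ?_, rfl⟩, h3,
    Dat.inl_injective, h6, fun x hx => ?_⟩
  · rcases le_or_gt ‖x‖ 1 with k | k
    · exact .inr ⟨x, mem_closedBall_zero_iff.2 k, rfl⟩
    · have : x ∈ ann 1 (exp L) := ⟨k, mem_ball_zero_iff.1 hx⟩
      exact .inl ⟨φ x, hK.out hL.le this, (Dat.cap_of_mem this).symm⟩
  · rintro x hx ⟨p, -, hp⟩
    exact (h4 x hx).2 ((Dat.cap_eq_inl (h4 x hx).1).1 hp.symm).1
  · rcases le_or_gt ‖x‖ 1 with k | k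
    · have k' := h4 x (mem_closedBall_zero_iff.2 k)
      have := co_pt g' (D.cap () x)
      rw [co, pt, Dat.chartAt_cap k'] at this
      simp only [mfld_simps, Dat.capH_coe, Dat.capH_symm_coe, Dat.cinv_cap k'.1] at this
      rw [this, Dat.cap_of_notMem k']; rfl
    · have k' : x ∈ ann 1 (exp L) := ⟨k, mem_ball_zero_iff.1 hx⟩
      rw [hG k', ← h6, comap_comp _ (h3.md (mem_univ _)) (h1.ld.md k')]
      exact comap_congr _ ((isOpen_ann.eventually_mem k').mono fun y hy => Dat.cap_of_mem hy)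

end Vale.Agent.P216SG
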