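import Vale.Agent.P216SG.Inv
import Vale.Agent.P216FL.OriC

/-! # The class is closed under cutting along spheres -/

open scoped Manifold ContDiff Topology
open Set Metric Real Filter

noncomputable section

namespace Vale.Agent.P216SG

open Vale.Agent.P216R Vale.Agent.P216C
open Vale.Agent.P216T (OE SepS KeepS InC SphGoal)

open Classical in
/-- a map seen as a map into the subtype `U` -/
def res {Y M : Type} (f : Y → M) {U : Set M} (p : U) (y : Y) : U :=
  if h : f y ∈ U then ⟨f y, h⟩ else p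

lemma res_val {Y M : Type} {f : Y → M} {U : Set M} (p : U) {y : Y} (h : f y ∈ U) :
    (res f p y : M) = f y := by rw [res, dif_pos h]

lemma oe_res {Y M : Type} [TopologicalSpace Y] [TopologicalSpace M] {f : Y → M} {U : Set M}
    (p : U) {V : Set Y} (h : OE f V) (hm : MapsTo f V U) : OE (res f p) V := by
  have e : EqOn (Subtype.val ∘ res f p) f V := fun y hy => res_val p (hm hy)
  refine ⟨h.opn, Topology.IsInducing.subtypeVal.continuousOn_iff.2 (h.cont.congr e),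
    (h.inj.congr e.symm).of_comp, fun W hW k => ?_⟩
  convert (h.img W hW k).preimage (continuous_subtype_val (p := (· ∈ U))) using 1
  rw [← (e.mono hW).image_eq, image_comp, preimage_image_eq _ Subtype.val_injective]

variable {M : Type} [TopologicalSpace M] [ChartedSpace E3 M] [IsManifold 𝓘(ℝ, E3) ∞ M]
  {U : Set M} {φ : E3 → M} {L : ℝ}

lemma Emb.oe {A : Set E3} (h : Emb φ A U) : OE φ A :=
  ⟨h.isOpen, h.cont, h.inj, fun _ h1 h2 => h.isOpen_image h2 h1⟩

lemma keep {G : Type} [Group G] (hU : IsOpen U) (hs : Hs U) (ho : Ori U) (hL : 0 < L)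
    (he : Emb φ (anl L) U) (p : U) {A B : Set U} (h : SepS (res φ p) (exp (-L)) 1 (exp L) A B)
    (hk : KeepS G (res φ p) 1 (exp L) A) : ∃ K, Side U φ L K ∧
      ∀ (M' : Type) [TopologicalSpace M'] [ChartedSpace E3 M'] [IsManifold 𝓘(ℝ, E3) ∞ M']
        (U' : Set M') (i : M → M') (ψ : E3 → M'), IsCut U φ L K U' i ψ → Cl G M' U' := by
  have e : ∀ x ∈ anl L, (res φ p x : M) = φ x := fun x hx => res_val p (he.mem hx)
  have e1 : ∀ x : E3, ‖x‖ = 1 → x ∈ anl L := fun x hx =>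
    sphere_sub_anl hL (mem_sphere_zero_iff_norm.2 hx)
  have hK : Side U φ L (Subtype.val '' A) := by
    refine ⟨hU.isOpenMap_subtype_val A h.oU, Subtype.coe_image_subset _ _, fun x hx => ?_, ?_⟩
    · rw [← e x hx, Subtype.val_injective.mem_set_image]
      refine ⟨fun k => not_le.1 fun k' => ?_, fun k => h.mU ⟨k, hx.2⟩⟩
      exact k'.eq_or_lt.elim (fun a => h.sU x a k) fun a => disjoint_left.1 h.disj k (h.mV ⟨hx.1, a⟩)
    · convert hU.isOpenMap_subtype_val B h.oV using 1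
      ext q
      refine ⟨fun k => ?_, ?_⟩
      · rcases h.cov ⟨q, k.1⟩ with a | a | ⟨x, a, b⟩
        exacts [(k.2 (.inl ⟨_, a, rfl⟩)).elim, ⟨_, a, rfl⟩, (k.2 (.inr
          ⟨x, mem_sphere_zero_iff_norm.2 a, (e x (e1 x a)).symm.trans (congrArg _ b)⟩)).elim]
      · rintro ⟨q, hq, rfl⟩
        refine ⟨q.2, ?_⟩
        rintro (⟨r, a, b⟩ | ⟨x, a, b⟩)
        · exact disjoint_left.1 h.disj (Subtype.ext b ▸ a) hq
        · rw [mem_sphere_zero_iff_norm] at a
          exact h.sV x a (Subtype.ext ((e x (e1 x a)).trans b) ▸ hq)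
  refine ⟨_, hK, fun M' _ _ _ U' i ψ c => ⟨?_, ho.cut c hK he hL⟩⟩
  have := (c.hs hK he hL hs).t2
  have h0 : ψ 0 ∈ U' := c.cap.mem (mem_ball_self (exp_pos L))
  have m : MapsTo (i ∘ Subtype.val) A U' := fun q hq => c.mem ⟨q, hq, rfl⟩
  refine hk U' (res (i ∘ Subtype.val) ⟨_, h0⟩) (res ψ ⟨_, h0⟩) (oe_res _ ⟨h.oU,
    c.cont.comp continuous_subtype_val.continuousOn fun q _ => q.2,
    fun q _ r _ k => Subtype.ext (c.inj q.2 r.2 k), fun W _ k => ?_⟩ m)
    (oe_res _ c.cap.oe c.cap.mem) (fun x hx => Subtype.ext ?_) (fun x hx q hq k => ?_) fun y => ?_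
  · rw [image_comp]
    exact c.ld.isOpen_image (hU.isOpenMap_subtype_val W k) (Subtype.coe_image_subset _ _)
  · rw [res_val _ (c.cap.mem (ann_sub_ball hx)), res_val _ (m (h.mU hx)), c.eq x hx, Function.comp,
      e x (ann_out hL.le hx)]
  · have k' := congrArg Subtype.val k
    rw [res_val _ (c.cap.mem (mem_ball_zero_iff.2 (hx.trans_lt (one_lt_exp_iff.2 hL)))),
      res_val _ (m hq)] at k'
    exact c.new x (mem_closedBall_zero_iff.2 hx) ⟨q, q.2, k'.symm⟩
  · rcases (c.cover' hL).subset y.2 with ⟨_, ⟨q, hq, rfl⟩, k⟩ | ⟨x, hx, k⟩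
    exacts [.inl ⟨q, hq, Subtype.ext ((res_val _ (m hq)).trans k)⟩,
      .inr ⟨x, hx, Subtype.ext ((res_val _ (c.cap.mem hx)).trans k)⟩]

lemma sepS_flip {N : Type} [TopologicalSpace N] {f : E3 → N} {A B : Set N}
    (h : SepS f (exp (-L)) 1 (exp L) A B) : SepS (f ∘ inv) (exp (-L)) 1 (exp L) B A := by
  have e : ∀ x : E3, ‖x‖ = 1 → ‖inv x‖ = 1 := fun x hx => by rw [norm_inv', hx, inv_one]
  refine ⟨h.oV, h.oU, h.disj.symm, fun y => ?_, fun x hx => h.sV _ (e x hx),
    fun x hx => h.sU _ (e x hx), fun x hx => h.mV ?_, fun x hx => h.mU ?_⟩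
  · rcases h.cov y with a | a | ⟨x, a, b⟩
    exacts [.inr (.inl a), .inl a, .inr (.inr ⟨inv x, e x a, by rw [Function.comp, inv_inv', b]⟩)]
  · have := inv_mem_lan (ann_one ▸ hx : x ∈ lan 0 L)
    rwa [neg_zero, lan, exp_zero] at this
  · have := inv_mem_lan (a := -L) (b := 0) (x := x) (by rwa [lan, exp_zero])
    rwa [neg_zero, neg_neg, ← ann_one] at this

theorem cut (H : SphGoal) : CUT := by
  intro G _ hG M _ _ _ U φ L hC hU hc hs _ hL he
  obtain ⟨x, hx⟩ := exists_nrm zero_le_one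
  let p : U := ⟨φ x, he.mem (sphere_sub_anl hL (mem_sphere_zero_iff_norm.2 hx))⟩
  have := hs.t2
  have := isCompact_iff_compactSpace.1 hc
  let _ : ChartedSpace E3 U := TopologicalSpace.Opens.instChartedSpace ⟨U, hU⟩
  have h1 := exp_lt_one_iff.2 (neg_lt_zero.2 hL)
  have h2 := one_lt_exp_iff.2 hL
  obtain ⟨k1, k2⟩ := H G hG U hC.1 (res φ p) _ _ (exp_pos _) (oe_res p he.oe he.mem)
  obtain ⟨A, B, k⟩ := k1 1 h1 h2
  rcases k2 with k2 | k2
  · exact ⟨φ, .inl rfl, keep hU hs hC.2 hL he p k (k2 1 A B h1 h2 k)⟩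
  · have := k2 1 A B h1 h2 k
    rw [inv_one, exp_neg, inv_inv] at this
    exact ⟨φ ∘ inv, .inr rfl, keep hU hs hC.2 hL he.flip p (sepS_flip k) this⟩

end Vale.Agent.P216SG
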