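import Vale.Agent.P216SG.Neck

/-! # A cut with an unmodified collar does not change distances on the kept side -/

open scoped Manifold ContDiff Topology ENNReal
open Set Metric Real Function

noncomputable section

namespace Vale.Agent.P216SG

open Vale.Agent.P216R

variable {M : Type} [TopologicalSpace M] [ChartedSpace E3 M]
  {M' : Type} [TopologicalSpace M'] [ChartedSpace E3 M']
  {g : Ten E3 M} {U U' K V : Set M} {φ ψ : E3 → M} {p q : M} {A : Set E3} {γ : ℝ → M}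
  {a b d h δ L lo hi r : ℝ}

/-- a connected set that leaves the side `K` meets the central sphere -/
lemma Side.exit (hK : Side U φ L K) (hV : IsPreconnected V) (hU : V ⊆ U) (h1 : (V ∩ K).Nonempty)
    (h2 : ¬V ⊆ K) : ∃ u ∈ sphere (0 : E3) 1, φ u ∈ V := by
  by_contra! k
  exact (hK.subset_or hV hU (disjoint_right.2 fun _ ⟨u, hu, e⟩ => e ▸ k u hu)).elim h2
    (not_disjoint_iff_nonempty_inter.2 h1)

lemma Side.first (hK : Side U φ L K) (he : Emb φ A U) (hA : sphere 0 1 ⊆ A) (hU : IsOpen U)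
    (hs : Hs U) (hab : a ≤ b) (hc : ContinuousOn γ (Icc a b)) (hm : MapsTo γ (Icc a b) U)
    (ha : γ a ∈ K ∪ φ '' sphere 0 1) (hb : γ b ∉ K) : ∃ t ∈ Icc a b, γ t ∈ φ '' sphere 0 1 ∧
      MapsTo γ (Icc a t) (K ∪ φ '' sphere 0 1) := by
  have h1 : IsCompact (Icc a b ∩ γ ⁻¹' (U \ φ '' sphere 0 1)ᶜ) := isCompact_Icc.of_isClosed_subset
    (hc.preimage_isClosed_of_isClosed isClosed_Icc
      (he.isOpen_diff hs hU (isCompact_sphere 0 1) hA).isClosed_compl) inter_subset_left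
  have h2 : ∀ t ∈ Icc a b, γ t ∈ φ '' sphere 0 1 ↔ t ∈ γ ⁻¹' (U \ φ '' sphere 0 1)ᶜ :=
    fun t ht => ⟨fun k l => l.2 k, fun k => by_contra fun l => k ⟨hm ht, l⟩⟩
  have h3 : ∀ t ∈ Icc a b, γ t ∉ K → ∃ s ∈ Icc a t, γ s ∈ φ '' sphere 0 1 := fun t ht k => by
    have hs : Icc a t ⊆ Icc a b := Icc_subset_Icc_right ht.2
    rcases ha with ha | ha
    · obtain ⟨u, hu, s, h4, e⟩ := hK.exit (isPreconnected_Icc.image γ (hc.mono hs))
        (hm.mono_left hs).image_subset ⟨_, mem_image_of_mem _ (left_mem_Icc.2 ht.1), ha⟩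
        fun l => k (l (mem_image_of_mem _ (right_mem_Icc.2 ht.1)))
      exact ⟨s, h4, u, hu, e.symm⟩
    · exact ⟨a, left_mem_Icc.2 ht.1, ha⟩
  obtain ⟨s, h4, h5⟩ := h3 b (right_mem_Icc.2 hab) hb
  obtain ⟨t, ht, h6⟩ := h1.exists_isLeast ⟨s, h4, (h2 s h4).1 h5⟩ |>.imp fun _ => id
  have h7 := (h2 t ht.1).2 ht.2
  refine ⟨t, ht.1, h7, fun s hs => by_contra fun k => ?_⟩
  have h8 : s ∈ Icc a b := ⟨hs.1, hs.2.trans ht.1.2⟩
  obtain ⟨u, hu, h9⟩ := h3 s h8 fun l => k (.inl l)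
  have h10 : u ∈ Icc a b := ⟨hu.1, hu.2.trans h8.2⟩
  obtain rfl : s = t := hs.2.antisymm ((h6 ⟨h10, (h2 u h10).1 h9⟩).trans hu.2)
  exact k (.inr h7)

variable [IsManifold 𝓘(ℝ, E3) ∞ M] [IsManifold 𝓘(ℝ, E3) ∞ M']

/-- a connected set that is cut contains the centre of a long ball inside the neck -/
theorem Side.died (hK : Side U φ L K) (H : Neck g U φ h δ) (hδ : δ ≤ 1 / 25) (hs : Hs U)
    (hV : IsPreconnected V) (hU : V ⊆ U) (h1 : (V ∩ K).Nonempty) (h2 : ¬V ⊆ K) :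
    ∃ z ∈ V, z ∈ φ '' sphere 0 1 ∧ bl g U z (h / δ) ⊆ φ '' anl δ⁻¹ := by
  obtain ⟨u, hu, k⟩ := hK.exit hV hU h1 h2
  have h3 : lv u = 0 := lv_of_mem (by rwa [exp_zero])
  have := (H.tb hδ).bl_sub (d := δ⁻¹) hs (sphere_sub_anl H.inv_pos hu) (by linarith) (by linarith)
  rw [h3, zero_sub, zero_add] at this
  exact ⟨_, k, mem_image_of_mem _ hu, (bl_mono (by
    nlinarith [mul_pos H.hpos H.inv_pos, div_eq_mul_inv h δ])).trans this⟩

omit [IsManifold 𝓘(ℝ, E3) ∞ M] in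
lemma IsCut.side {U' : Set M'} {i : M → M'} {ψ : E3 → M'} (H : IsCut U φ L K U' i ψ)
    (hK : Side U φ L K) [IsManifold 𝓘(ℝ, E3) ∞ M] (hL : 0 < L) : Side U' ψ L (i '' K) := by
  have h1 : closedBall (0 : E3) 1 ⊆ ball 0 (exp L) := closedBall_subset_ball (one_lt_exp_iff.2 hL)
  refine ⟨H.ld.isOpen_image hK.isOpen hK.sub, H.mem.image_subset, fun x hx => ⟨fun k =>
    not_le.1 fun l => H.new x (mem_closedBall_zero_iff.2 l) (image_mono hK.sub k), fun k =>
      H.eq x ⟨k, hx.2⟩ ▸ mem_image_of_mem _ ((hK.mem x hx).2 k)⟩, ?_⟩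
  convert H.cap.isOpen_image isOpen_ball (ball_subset_closedBall.trans h1) using 1
  refine Subset.antisymm (fun y hy => ?_) ?_
  · obtain ⟨x, hx, rfl⟩ := (H.cover ▸ hy.1).resolve_left fun k => hy.2 (.inl k)
    exact mem_image_of_mem _ ((mem_closedBall.1 hx).lt_of_ne fun e =>
      hy.2 (.inr (mem_image_of_mem _ e)))
  · rintro _ ⟨x, hx, rfl⟩
    have := ball_subset_closedBall hx
    exact ⟨H.cap.mem (h1 this), fun k => k.elim (fun l => H.new x this (image_mono hK.sub l))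
      fun l => (mem_ball.1 hx).ne
        ((H.cap.mem_image (sphere_subset_closedBall.trans h1) (h1 this)).1 l)⟩

lemma Side.half (hK : Side U φ L K) (T : Tb g U φ (lan (-d) d) lo hi) (hd : 0 < d) (hU : IsOpen U)
    (hs : Hs U) (hγ : Crv E3 U γ a b) (ha : γ a ∈ K ∪ φ '' sphere 0 1)
    (hb : γ b ∉ K ∪ φ '' lan (-d) d) : ∃ u ∈ sphere (0 : E3) 1,
      ed g (K ∪ φ '' lan (-d) d) (γ a) (φ u) + ENNReal.ofReal (lo * d) ≤ len g γ a b := by
  have hA : sphere 0 1 ⊆ lan (-d) d := sphere_sub_anl hd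
  obtain ⟨t, ht, ⟨u, hu, e⟩, k⟩ := hK.first T.emb hA hU hs hγ.le hγ.cont hγ.mem ha
    fun l => hb (.inl l)
  have h3 : lv u = 0 := lv_of_mem (by rwa [exp_zero])
  refine ⟨u, hu, ?_⟩
  rw [← len_add ht.1 ht.2, e]
  refine add_le_add (ed_le_len ((hγ.mono le_rfl ht.1 ht.2).of_mem
    (k.mono_right (union_subset_union_right _ (image_mono hA))))) (le_trans ?_
      (ed_le_len (hγ.mono ht.1 ht.2 le_rfl)))
  rw [← e]
  refine T.le_ed hs (hA hu) (by linarith) (by linarith) fun l => hb (.inr ?_)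
  rwa [h3, zero_sub, zero_add] at l

/-- the distance between points of a side is realised near that side -/
theorem Side.ed_eq (hK : Side U φ L K) (T : Tb g U φ (lan (-d) d) lo hi) (hU : IsOpen U)
    (hs : Hs U) (hd : hi * π ≤ 2 * lo * d) (hp : p ∈ K ∪ φ '' sphere 0 1)
    (hq : q ∈ K ∪ φ '' sphere 0 1) : ed g (K ∪ φ '' lan (-d) d) p q = ed g U p q := by
  have h0 : 0 < d := by
    by_contra! k
    nlinarith [mul_pos T.hi_pos pi_pos, mul_nonneg T.pos.le (neg_nonneg.2 k)]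
  refine le_antisymm (le_ed fun γ hγ e0 e1 => ?_)
    (ed_anti (union_subset hK.sub (T.emb.image_sub Subset.rfl)))
  subst e0 e1
  by_cases k : MapsTo γ (Icc 0 1) (K ∪ φ '' lan (-d) d)
  · exact ed_le_len (hγ.of_mem k)
  obtain ⟨t, k⟩ := not_forall.1 k
  obtain ⟨ht, k⟩ := Classical.not_imp.1 k
  obtain ⟨u, hu, h1⟩ := hK.half T h0 hU hs (hγ.mono le_rfl ht.1 ht.2) hp k
  obtain ⟨h2, h3⟩ := (hγ.mono ht.1 ht.2 le_rfl).rev
  obtain ⟨w, hw, h4⟩ := hK.half T h0 hU hs h2 (by simpa using hq) (by simpa using k)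
  have T' : Tb g (K ∪ φ '' lan (-d) d) φ (lan (-d) d) lo hi :=
    { T with emb := T.emb.of_mem fun x hx => .inr (mem_image_of_mem _ hx) }
  have h5 := T'.ed_le_of_eq (sphere_sub_anl h0 hu) (sphere_sub_anl h0 hw) (by
    rw [lv_of_mem (c := 0) (by rwa [exp_zero]), lv_of_mem (c := 0) (by rwa [exp_zero])])
  have h6 : 0 ≤ lo * d := (mul_pos T.pos h0).le
  rw [h3, add_sub_cancel_left, ed_comm] at h4
  rw [← len_add ht.1 ht.2]
  refine ((ed_triangle _ (φ u) _).trans (add_le_add_right (ed_triangle _ (φ w) _) _)).trans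
    (le_trans ?_ (add_le_add h1 h4))
  rw [add_assoc, add_comm (ed _ _ (φ w) _), ← add_assoc (ENNReal.ofReal _),
    ← ENNReal.ofReal_add h6 h6]
  gcongr
  exact h5.trans (ENNReal.ofReal_le_ofReal (by linarith))

/-- comparison of the distances of two extensions of `K` -/
lemma ed_ext_le (hK : IsOpen K) (H : Emb φ A U) (H' : Emb ψ A U')
    (e : ∀ x ∈ A, φ x ∈ K → ψ x = φ x) (hle : ∀ x ∈ A, ∀ v, comap ψ g x v v ≤ comap φ g x v v)
    (hp : p ∈ K) (hq : q ∈ K) : ed g (K ∪ ψ '' A) p q ≤ ed g (K ∪ φ '' A) p q := by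
  classical
  have h1 : EqOn (K.piecewise id (ψ ∘ invFunOn φ A)) (ψ ∘ invFunOn φ A) (φ '' A) := by
    rintro _ ⟨x, hx, rfl⟩
    by_cases k : φ x ∈ K
    · simp [k, H.inj.leftInvOn_invFunOn hx, e x hx k]
    · simp [k]
  have h2 := H.ld.inverse H.inj
  have h3 : MapsTo (invFunOn φ A) (φ '' A) A := fun _ hy => invFunOn_mem hy
  have h4 := (H'.ld.comp h2 h3).congr h1
  have h5 := (ld_id (E := E3) hK).congr (piecewise_eqOn K id (ψ ∘ invFunOn φ A))
  have := ed_map_le (g := g) (h := g) (U := K ∪ ψ '' A) (C := 1) (hK.union h2.isOpen)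
    (f := K.piecewise id (ψ ∘ invFunOn φ A)) (fun y hy => ((hy.elim h5.sm h4.sm).of_le
      (by norm_cast)).contMDiffWithinAt) (fun y hy => by
        by_cases k : y ∈ K
        · simp [k]
        · exact .inr (h1 (hy.resolve_left k) ▸ mem_image_of_mem _ (h3 (hy.resolve_left k))))
    one_pos (fun y hy v => by
      rcases hy with k | k
      · rw [comap_congr g ((piecewise_eqOn K id _).eventuallyEq_of_mem (hK.mem_nhds k)), comap_id,
          one_pow, one_mul]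
      · rw [comap_congr g (h1.eventuallyEq_of_mem (h2.isOpen.mem_nhds k)),
          ← comap_comp g (H'.ld.md (h3 k)) (h2.md k)]
        exact comap_inv_le H.ld H.inj (by simpa using hle) y k v) p q
  simpa [hp, hq] using this

/-- a cut with an unmodified collar preserves the distances on the kept side -/
theorem IsCut.ed_eq (H : IsCut U φ L K U' id ψ) (hK : Side U φ L K)
    (T : Tb g U φ (lan (-d) d) lo hi) (hL : d ≤ L) (hU : IsOpen U) (hs : Hs U) (hs' : Hs U')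
    (hd : hi * π ≤ 2 * lo * d) (e : EqOn (comap ψ g) (comap φ g) (lan (-d) d)) (hp : p ∈ K)
    (hq : q ∈ K) : ed g U' p q = ed g U p q := by
  have h0 : 0 < d := by
    by_contra! k
    nlinarith [mul_pos T.hi_pos pi_pos, mul_nonneg T.pos.le (neg_nonneg.2 k)]
  have h1 : lan (-d) d ⊆ anl L := anl_mono hL
  have T' : Tb g U' ψ (lan (-d) d) lo hi := ⟨T.pos, T.le, H.cap.mono isOpen_lan
    (h1.trans ann_sub_ball), fun x hx => e hx ▸ T.low x hx, fun x hx => e hx ▸ T.up x hx⟩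
  have hK' := H.side hK (h0.trans_le hL)
  rw [image_id] at hK'
  rw [← hK.ed_eq T hU hs hd (.inl hp) (.inl hq),
    ← hK'.ed_eq T' (H.isOpen hK (h0.trans_le hL)) hs' hd (.inl hp) (.inl hq)]
  exact le_antisymm (ed_ext_le hK.isOpen T.emb T'.emb (fun x hx k =>
    H.eq x ⟨(hK.mem x (h1 hx)).1 k, (h1 hx).2⟩) (fun x hx v => e hx ▸ le_rfl) hp hq)
    (ed_ext_le hK.isOpen T'.emb T.emb (fun x hx k =>
      (H.eq x ⟨(hK'.mem x (h1 hx)).1 k, (h1 hx).2⟩).symm) (fun x hx v => e hx ▸ le_rfl) hp hq)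

end Vale.Agent.P216SG
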