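import Vale.Agent.P216SG.Tube
import Mathlib.Geometry.Euclidean.Inversion.Calculus

/-! # Inversion and dilations of annuli -/

open scoped Manifold ContDiff Topology RealInnerProductSpace
open Set Metric Real Filter

noncomputable section

namespace Vale.Agent.P216SG

open Vale.Agent.P216R

variable {a b c L : ℝ} {x : E3}

lemma euc_apply (v w : E3) : euc v w = ⟪v, w⟫ := rfl

lemma norm_euc_le : ‖euc‖ ≤ 1 := norm_innerSL_le ℝ

lemma norm_inv' (x : E3) : ‖inv x‖ = ‖x‖⁻¹ := by
  rcases eq_or_ne ‖x‖ 0 with h | h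
  · simp [inv, h]
  · rw [inv, norm_smul, norm_inv, norm_pow, norm_norm]; field_simp

lemma inv_inv' (x : E3) : inv (inv x) = x := by
  rcases eq_or_ne x 0 with rfl | h
  · simp [inv]
  · rw [inv, norm_inv', inv, smul_smul, inv_pow, inv_inv, mul_inv_cancel₀ (by simpa using h),
      one_smul]

lemma inv_ne (h : x ≠ 0) : inv x ≠ 0 := by
  rw [← norm_ne_zero_iff, norm_inv']; simpa using h

lemma lv_inv (x : E3) : lv (inv x) = -lv x := by rw [lv, norm_inv', log_inv, lv]

lemma inv_mem_lan (h : x ∈ lan a b) : inv x ∈ lan (-b) (-a) := by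
  rw [mem_lan] at h ⊢
  rw [lv_inv]
  exact ⟨inv_ne h.1, neg_lt_neg h.2.2, neg_lt_neg h.2.1⟩

lemma inv_mem_anl (h : x ∈ anl L) : inv x ∈ anl L := by
  have := inv_mem_lan h
  rwa [neg_neg] at this

lemma inv_mem_sphere : inv x ∈ sphere (0 : E3) 1 ↔ x ∈ sphere (0 : E3) 1 := by
  simp [norm_inv']

lemma inv_image_sphere : inv '' sphere (0 : E3) 1 = sphere 0 1 :=
  subset_antisymm (image_subset_iff.2 fun _ => inv_mem_sphere.2)
    fun x h => ⟨inv x, inv_mem_sphere.2 h, inv_inv' x⟩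

lemma inv_image_lan : inv '' lan a b = lan (-b) (-a) :=
  subset_antisymm (image_subset_iff.2 fun _ => inv_mem_lan)
    fun x h => ⟨inv x, by simpa using inv_mem_lan h, inv_inv' x⟩

lemma contDiffAt_inv' {n : WithTop ℕ∞} (h : x ≠ 0) : ContDiffAt ℝ n inv x :=
  (((contDiff_norm_sq ℝ).contDiffAt).inv (by simpa using h)).smul contDiffAt_id

lemma inv_eq : inv = EuclideanGeometry.inversion (0 : E3) 1 := by
  ext1 x; simp [inv, EuclideanGeometry.inversion]

lemma inner_fderiv_inv (h : x ≠ 0) (v w : E3) :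
    ⟪fderiv ℝ inv x v, fderiv ℝ inv x w⟫ = (‖x‖ ^ 4)⁻¹ * ⟪v, w⟫ := by
  rw [inv_eq, (EuclideanGeometry.hasFDerivAt_inversion h).fderiv]
  simp only [smul_apply, inner_smul_left, inner_smul_right, ContinuousLinearEquiv.coe_coe,
    LinearIsometryEquiv.coe_toContinuousLinearEquiv, LinearIsometryEquiv.inner_map_map,
    dist_zero_right, conj_trivial]
  ring

lemma ld_inv' : LD E3 inv {0}ᶜ :=
  ld_of_left_inv isOpen_compl_singleton
    (fun _ h => (contDiffAt_inv' h).contMDiffAt.contMDiffWithinAt) (k := inv)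
    (fun _ h => (contDiffAt_inv' (n := 1) (inv_ne h)).contMDiffAt.mdifferentiableAt one_ne_zero)
    fun x _ => inv_inv' x

lemma lan_sub : lan a b ⊆ {0}ᶜ := fun _ h => (mem_lan.1 h).1

lemma emb_inv : Emb inv (lan a b) (lan (-b) (-a)) :=
  ⟨ld_inv'.mono isOpen_lan lan_sub, (Function.LeftInverse.injective inv_inv').injOn,
    fun _ => inv_mem_lan⟩

lemma emb_inv_anl : Emb inv (anl L) (anl L) :=
  (emb_inv (a := -L) (b := L)).of_mem fun _ => inv_mem_anl

lemma comap_inv_cyl (h : x ≠ 0) : comap inv cyl x = cyl x := by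
  ext v w
  have := norm_ne_zero_iff.2 h
  simp only [comap_model, cyl, smul_apply, euc_apply, inner_fderiv_inv h, norm_inv', smul_eq_mul]
  field_simp

/-- dilation that shifts the level by `c` -/
def dil (c : ℝ) (x : E3) : E3 := exp c • x

lemma norm_dil (c : ℝ) (x : E3) : ‖dil c x‖ = exp c * ‖x‖ := by
  rw [dil, norm_smul, norm_of_nonneg (exp_pos c).le]

lemma dil_dil (c : ℝ) (x : E3) : dil (-c) (dil c x) = x := by
  rw [dil, dil, smul_smul, ← exp_add, neg_add_cancel, exp_zero, one_smul]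

lemma dil_ne (h : x ≠ 0) : dil c x ≠ 0 := smul_ne_zero (exp_pos c).ne' h

lemma dil_mem_lan (h : x ∈ lan a b) : dil c x ∈ lan (c + a) (c + b) := by
  rw [mem_lan] at h ⊢
  rw [dil, lv_smul c h.1]
  exact ⟨dil_ne h.1, by linarith [h.2.1], by linarith [h.2.2]⟩

lemma hasFDerivAt_dil (c : ℝ) (x : E3) :
    HasFDerivAt (dil c) (exp c • ContinuousLinearMap.id ℝ E3) x :=
  (hasFDerivAt_id x).const_smul (exp c)

lemma contDiff_dil {n : WithTop ℕ∞} (c : ℝ) : ContDiff ℝ n (dil c) := contDiff_const_smul _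

lemma ld_dil (c : ℝ) : LD E3 (dil c) univ :=
  ld_of_left_inv isOpen_univ (contDiff_dil c).contMDiff.contMDiffOn (k := dil (-c))
    (fun _ _ => (contDiff_dil (n := 1) _).contMDiff.mdifferentiableAt one_ne_zero)
    fun x _ => dil_dil c x

lemma emb_dil {A B : Set E3} (hA : IsOpen A) (h : MapsTo (dil c) A B) : Emb (dil c) A B :=
  ⟨(ld_dil c).mono hA (subset_univ _), (Function.LeftInverse.injective (dil_dil c)).injOn, h⟩

lemma dil_mem_anl {L' : ℝ} (h : |c| + L ≤ L') : MapsTo (dil c) (anl L) (anl L') := fun _ hx =>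
  lan_mono (by linarith [neg_abs_le c]) (by linarith [le_abs_self c]) (dil_mem_lan hx)

lemma comap_dil (c : ℝ) (G : E3 → Bil E3) (x : E3) :
    comap (dil c) G x = exp c ^ 2 • G (dil c x) := by
  ext v w
  simp only [comap_model, (hasFDerivAt_dil c x).fderiv, smul_apply, ContinuousLinearMap.id_apply,
    map_smul, smul_eq_mul]
  ring

lemma exists_dil (h : x ≠ 0) : ∃ u ∈ sphere (0 : E3) 1, dil (lv x) u = x :=
  ⟨dil (-lv x) x, by
    rw [mem_sphere_zero_iff_norm, norm_dil, exp_neg, exp_lv h,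
      inv_mul_cancel₀ (norm_ne_zero_iff.2 h)], by simpa using dil_dil (-lv x) x⟩

variable {M : Type} [TopologicalSpace M] [ChartedSpace E3 M] {U K : Set M} {φ : E3 → M}

lemma Emb.flip (h : Emb φ (anl L) U) : Emb (φ ∘ inv) (anl L) U := h.comp emb_inv_anl

/-- the other side -/
lemma Side.flip (h : Side U φ L K) (he : Emb φ (anl L) U) (hL : 0 < L) :
    Side U (φ ∘ inv) L (U \ (K ∪ φ '' sphere 0 1)) := by
  refine ⟨h.other, sdiff_subset, fun x hx => ?_, ?_⟩
  · have h1 := inv_mem_anl hx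
    have h2 := anl_pos hx
    rw [Function.comp, Set.mem_sdiff, mem_union, h.mem _ h1, he.mem_image (sphere_sub_anl hL) h1,
      mem_sphere_zero_iff_norm, norm_inv', and_iff_right (he.mem h1), not_or, not_lt, ← ne_eq,
      ← lt_iff_le_and_ne, inv_lt_one₀ h2]
  · convert h.isOpen using 1
    rw [image_comp, inv_image_sphere]
    ext p
    exact ⟨fun k => by_contra fun k' => k.2 (by_contra fun k'' => k'' (.inl
      ⟨k.1, fun a => a.elim k' fun b => k'' (.inr b)⟩)),
      fun k => ⟨h.sub k, fun a => a.elim (fun b => b.2 (.inl k)) fun b => h.notMem hL b k⟩⟩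

end Vale.Agent.P216SG
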