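import Vale.Agent.P216SG.Neck
import Vale.Agent.P216FI.Vol2
import Mathlib.MeasureTheory.Constructions.HaarToSphere
import Mathlib.MeasureTheory.Measure.Lebesgue.VolumeOfBalls
import Mathlib.Analysis.SpecialFunctions.Integrals.Basic

/-! # Volumes of necks and the volume drop of a cut -/

open scoped Manifold ContDiff Topology ENNReal
open Set Metric Real MeasureTheory

set_option maxSynthPendingDepth 3

noncomputable section

namespace Vale.Agent.P216SG

open Vale.Agent.P216R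
open Vale.Agent.P216BF (PD)

variable {a b c d h δ ε L V lo hi ρ : ℝ} {x : E3} {A S : Set E3}

lemma vol_conf {f : E3 → ℝ} (hf : ∀ z, 0 ≤ f z) (hS : MeasurableSet S) :
    vol (fun z => f z ^ 2 • euc) S = ∫⁻ z in S, ENNReal.ofReal (f z ^ 3) := by
  rw [vol_euc, withDensity_apply _ hS]
  refine lintegral_congr fun z => ?_
  rw [show (Matrix.of fun i j : Fin 3 => (f z ^ 2 • euc) (EuclideanSpace.single i 1)
    (EuclideanSpace.single j 1)) = f z ^ 2 • (1 : Matrix (Fin 3) (Fin 3) ℝ) by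
      ext i j; simp [euc_apply, Matrix.one_apply, EuclideanSpace.inner_single_left]]
  rw [Matrix.det_smul, Matrix.det_one, mul_one, Fintype.card_fin, ← pow_mul, mul_comm 2, pow_mul,
    sqrt_sq (pow_nonneg (hf z) _)]

lemma vol_log (hab : a ≤ b) :
    vol (fun z : E3 => ‖z‖⁻¹ ^ 2 • euc) (lan a b) = ENNReal.ofReal (4 * π * (b - a)) := by
  have hc : ContinuousOn (fun z : E3 => ‖z‖⁻¹ ^ 3) (cann (exp a) (exp b)) :=
    (continuous_norm.continuousOn.inv₀ fun z hz => ((exp_pos a).trans_le hz.1).ne').pow 3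
  have e := integral_fun_norm_addHaar (volume : Measure E3)
    ((Ioo (exp a) (exp b)).indicator fun y : ℝ => y⁻¹ ^ 3)
  have e1 : ∫ y in Ioi (0 : ℝ), y ^ (3 - 1) • (Ioo (exp a) (exp b)).indicator
      (fun y : ℝ => y⁻¹ ^ 3) y = b - a := by
    rw [← show log (exp b / exp a) = b - a by rw [← exp_sub, log_exp],
      ← integral_inv_of_pos (exp_pos a) (exp_pos b), intervalIntegral.integral_of_le (by gcongr),
      integral_Ioc_eq_integral_Ioo, ← inter_eq_right.2
        (show Ioo (exp a) (exp b) ⊆ Ioi 0 from fun y hy => (exp_pos a).trans hy.1),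
      ← setIntegral_indicator measurableSet_Ioo, inter_eq_right.2
        (show Ioo (exp a) (exp b) ⊆ Ioi 0 from fun y hy => (exp_pos a).trans hy.1)]
    refine setIntegral_congr_fun measurableSet_Ioi fun y hy => ?_
    by_cases k : y ∈ Ioo (exp a) (exp b)
    · have : y ≠ 0 := ne_of_gt hy
      simp only [indicator_of_mem k, smul_eq_mul]; field_simp
    · simp [indicator_of_notMem k]
  rw [finrank_euclideanSpace_fin, e1, Measure.real, EuclideanSpace.volume_ball_fin_three] at e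
  rw [vol_conf (fun z => by positivity) isOpen_lan.measurableSet,
    ← ofReal_integral_eq_lintegral_ofReal ((hc.integrableOn_compact isCompact_cann).mono_set
      fun z hz => ⟨hz.1.le, hz.2.le⟩) (.of_forall fun z => by positivity),
    ← integral_indicator isOpen_lan.measurableSet]
  congr 1
  refine (e.trans ?_ :)
  simp [ENNReal.toReal_ofReal (show 0 ≤ π * 4 / 3 by positivity)]; ring

lemma pd_conf {r : ℝ} (hr : r ≠ 0) : PD (r ^ 2 • euc) :=
  ⟨fun v w => by simp [euc_apply, real_inner_comm], fun v hv => by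
    simp only [smul_apply, euc_apply, real_inner_self_eq_norm_sq, smul_eq_mul]
    positivity⟩

variable {M : Type} [TopologicalSpace M] [ChartedSpace E3 M] [IsManifold 𝓘(ℝ, E3) ∞ M]
  [MeasurableSpace M] [BorelSpace M] {g : Ten E3 M} {U U' K : Set M} {φ ψ : E3 → M} {p : M}

omit [MeasurableSpace M] [BorelSpace M] in
lemma Emb.pd (H : Emb φ A U) (hg : Met g U) (hx : x ∈ A) : PD (comap φ g x) :=
  ⟨fun _ _ => hg.symm _ (H.mem hx) _ _, hg.comap_pos H.ld hx (H.mem hx)⟩

lemma Emb.vol_eq (H : Emb φ A U) (hS : MeasurableSet S) (hA : S ⊆ A) :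
    vol g (φ '' S) = vol (comap φ g) S :=
  vol_image g H.ld H.inj (HereditarilyLindelofSpace.isLindelof A) Subset.rfl hS hA

lemma Emb.vol_le (H : Emb φ A U) (hg : Met g U) (hS : MeasurableSet S) (hA : S ⊆ A) (hc : 0 < c)
    (h : ∀ x ∈ S, ∀ v, comap φ g x v v ≤ c ^ 2 * ‖v‖ ^ 2) :
    vol g (φ '' S) ≤ ENNReal.ofReal (c ^ 3) * volume S := by
  have := vol_le_mul (h := fun _ : E3 => (1 : ℝ) ^ 2 • euc) (HereditarilyLindelofSpace.isLindelof S)
    hS Subset.rfl hc (fun x hx => H.pd hg (hA hx)) (fun _ _ => pd_conf one_ne_zero)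
    fun x hx v => by simpa [euc_apply] using h x hx v
  rw [vol_conf (f := fun _ => 1) (fun _ => zero_le_one) hS, finrank_euclideanSpace_fin] at this
  simpa [H.vol_eq hS hA] using this

lemma Emb.le_vol (H : Emb φ A U) (hg : Met g U) (hS : MeasurableSet S) (hA : S ⊆ A) (hc : 0 < c)
    (h : ∀ x ∈ S, ∀ v, c ^ 2 * ‖v‖ ^ 2 ≤ comap φ g x v v) :
    ENNReal.ofReal (c ^ 3) * volume S ≤ vol g (φ '' S) := by
  have := vol_mono_met (g := fun _ : E3 => c ^ 2 • euc) (HereditarilyLindelofSpace.isLindelof S)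
    hS Subset.rfl (fun _ _ => pd_conf hc.ne') (fun x hx => H.pd hg (hA hx))
    fun x hx v => by simpa [euc_apply] using h x hx v
  rw [vol_conf (f := fun _ => c) (fun _ => hc.le) hS] at this
  simpa [H.vol_eq hS hA] using this

lemma Tb.vol_le (H : Tb g U φ A lo hi) (hg : Met g U) (hA : lan c d ⊆ A) (hcd : c ≤ d) :
    vol g (φ '' lan c d) ≤ ENNReal.ofReal (hi ^ 3 * (4 * π * (d - c))) := by
  have := vol_le_mul (h := fun z : E3 => ‖z‖⁻¹ ^ 2 • euc) (HereditarilyLindelofSpace.isLindelof _)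
    isOpen_lan.measurableSet Subset.rfl H.hi_pos (fun x hx => H.emb.pd hg (hA hx))
    (fun x hx => pd_conf (inv_pos.2 (lan_pos hx)).ne') fun x hx v => by
      have := H.up x (hA hx) v
      have := lan_pos hx
      simp only [smul_apply, euc_apply, real_inner_self_eq_norm_sq, smul_eq_mul]
      rwa [inv_pow, mul_left_comm, le_inv_mul_iff₀ (by positivity)]
  rwa [vol_log hcd, finrank_euclideanSpace_fin, ← ENNReal.ofReal_mul (pow_pos H.hi_pos _).le,
    ← H.emb.vol_eq isOpen_lan.measurableSet hA] at this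

lemma Tb.le_vol (H : Tb g U φ A lo hi) (hg : Met g U) (hA : lan c d ⊆ A) (hcd : c ≤ d) :
    ENNReal.ofReal (lo ^ 3 * (4 * π * (d - c))) ≤ vol g (φ '' lan c d) := by
  have := vol_mono_met (g := lo ^ 2 • fun z : E3 => ‖z‖⁻¹ ^ 2 • euc)
    (HereditarilyLindelofSpace.isLindelof _) isOpen_lan.measurableSet Subset.rfl
    (fun x hx => by
      simpa [smul_smul, mul_pow] using pd_conf (mul_pos H.pos (inv_pos.2 (lan_pos hx))).ne')
    (fun x hx => H.emb.pd hg (hA hx)) fun x hx v => by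
      have := H.low x (hA hx) v
      have := lan_pos hx
      simp only [smul_apply, euc_apply, real_inner_self_eq_norm_sq, smul_eq_mul,
        Pi.smul_apply]
      rwa [inv_pow, mul_left_comm, inv_mul_le_iff₀ (by positivity)]
  rwa [vol_smul (HereditarilyLindelofSpace.isLindelof _) isOpen_lan.measurableSet Subset.rfl H.pos,
    vol_log hcd, finrank_euclideanSpace_fin, ← ENNReal.ofReal_mul (pow_pos H.pos _).le,
    ← H.emb.vol_eq isOpen_lan.measurableSet hA] at this

/-- balls about the centre of a neck have linear volume growth -/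
theorem Cen.vol_le (H : Cen g U p h ε) (hg : Met g U) (hs : Hs U) (hε : ε ≤ 1 / 25) (h0 : 0 ≤ ρ)
    (hρ : ρ ≤ h / ε) : vol g (bl g U p ρ) ≤ ENNReal.ofReal (61 * h ^ 2 * ρ) := by
  obtain ⟨φ, H, x, hx, rfl⟩ := H
  have h1 : lv x = 0 := lv_of_mem (by rwa [exp_zero])
  have h2 := H.hpos
  have h3 : ρ / (7 / 5 * h) ≤ ε⁻¹ := by
    rw [div_le_iff₀ (by positivity)]
    nlinarith [mul_pos h2 H.inv_pos, div_eq_mul_inv h ε]
  have := (H.tb hε).bl_sub (d := ρ / (7 / 5 * h)) hs (sphere_sub_anl H.inv_pos hx) (by linarith)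
    (by linarith)
  rw [mul_div_cancel₀ _ (by positivity)] at this
  refine (measure_mono this).trans (((H.tb hε).vol_le hg (lan_mono (by linarith) (by linarith))
    (by linarith [show 0 ≤ ρ / (7 / 5 * h) by positivity])).trans (ENNReal.ofReal_le_ofReal ?_))
  rw [show (3 / 2 * h) ^ 3 * (4 * π * (lv x + ρ / (7 / 5 * h) - (lv x - ρ / (7 / 5 * h)))) =
    135 / 7 * π * (h ^ 2 * ρ) by field_simp; ring]
  nlinarith [pi_lt_d2, mul_nonneg (sq_nonneg h) h0]

theorem Cen.le_vol (H : Cen g U p h ε) (hg : Met g U) (hε : ε ≤ 1 / 25) (h0 : 10 * h ≤ ρ)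
    (hρ : ρ ≤ h / ε) : ENNReal.ofReal (20 * h ^ 2 * ρ) ≤ vol g (bl g U p ρ) := by
  obtain ⟨φ, H, x, hx, rfl⟩ := H
  have h1 : lv x = 0 := lv_of_mem (by rwa [exp_zero])
  have h2 := H.hpos
  have h3 : ρ / (3 * h) ≤ ε⁻¹ := by
    rw [div_le_iff₀ (by positivity)]
    nlinarith [mul_pos h2 H.inv_pos, div_eq_mul_inv h ε]
  have h4 : 0 ≤ ρ / (3 * h) := by have : 0 ≤ ρ := by linarith
                                  positivity
  have h5 := lan_mono (neg_le_neg h3) h3
  refine le_trans (ENNReal.ofReal_le_ofReal ?_) (((H.tb hε).le_vol hg h5 (by linarith)).trans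
    (measure_mono ?_))
  · rw [show (7 / 5 * h) ^ 3 * (4 * π * (ρ / (3 * h) - -(ρ / (3 * h)))) =
      2744 / 375 * π * (h ^ 2 * ρ) by field_simp; ring]
    nlinarith [pi_gt_three, mul_nonneg (sq_nonneg h) (show 0 ≤ ρ by linarith)]
  · rintro _ ⟨y, hy, rfl⟩
    refine ((H.tb hε).ed_le (sphere_sub_anl H.inv_pos hx) (h5 hy)).trans_lt
      ((ENNReal.ofReal_lt_ofReal_iff (by linarith)).2 ?_)
    have := abs_lt.2 (mem_lan.1 hy).2
    rw [lt_div_iff₀ (by positivity)] at this
    rw [h1, zero_sub, abs_neg]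
    nlinarith [pi_lt_d2]

omit [IsManifold 𝓘(ℝ, E3) ∞ M] [MeasurableSpace M] [BorelSpace M] in
lemma IsCut.diff (H : IsCut U φ L K U' id ψ) (hK : K ⊆ U) : U' \ U = ψ '' closedBall 0 1 := by
  ext p
  rw [H.cover, image_id]
  exact ⟨fun k => k.1.resolve_left fun a => k.2 (hK a),
    fun k => ⟨.inr k, by obtain ⟨x, hx, rfl⟩ := k; simpa using H.new x hx⟩⟩

omit [IsManifold 𝓘(ℝ, E3) ∞ M] [MeasurableSpace M] [BorelSpace M] in
lemma IsCut.inter (H : IsCut U φ L K U' id ψ) (hK : K ⊆ U) : U ∩ U' = K := by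
  ext p
  exact ⟨fun k => (H.mem_iff hK k.1).1 k.2, fun k => ⟨hK k, H.mem k⟩⟩

/-- a cut removes half a neck and adds a cap -/
theorem IsCut.vol_drop (H : IsCut U φ L K U' id ψ) (hK : Side U φ L K) (hg : Met g U) (hL : 0 ≤ L)
    (T : Tb g U φ (lan (-L) 0) lo hi) : vol g U' + ENNReal.ofReal (lo ^ 3 * (4 * π * L)) ≤
      vol g U + vol g (ψ '' closedBall 0 1) := by
  have h1 := T.le_vol hg Subset.rfl (by linarith)
  have h2 : Disjoint K (φ '' lan (-L) 0) := disjoint_right.2 fun _ ⟨x, hx, e⟩ k =>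
    ((hK.mem x (lan_mono le_rfl hL hx)).1 (e ▸ k)).not_gt (by simpa using hx.2)
  rw [zero_sub, neg_neg] at h1
  calc _ ≤ vol g K + vol g (ψ '' closedBall 0 1) + vol g (φ '' lan (-L) 0) := by
        gcongr; rw [H.cover, image_id]; exact measure_union_le _ _
    _ ≤ _ := by
        rw [add_right_comm, ← measure_union h2 (T.emb.isOpen_image isOpen_lan Subset.rfl).measurableSet]
        gcongr
        exact union_subset hK.sub (T.emb.image_sub Subset.rfl)

theorem IsCut.vol_drop' (H : IsCut U φ L K U' id ψ) (hK : Side U φ L K) (hg : Met g U) (hL : 0 ≤ L)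
    (T : Tb g U φ (lan (-L) 0) lo hi) (hV : vol g (ψ '' closedBall 0 1) ≤ ENNReal.ofReal V)
    (h0 : 0 ≤ V) {v : ℝ} (h1 : 0 ≤ v) (hv : v + V ≤ lo ^ 3 * (4 * π * L)) :
    vol g U' + ENNReal.ofReal v ≤ vol g U := by
  refine (ENNReal.add_le_add_iff_right ENNReal.ofReal_ne_top).1 (le_trans ?_
    ((H.vol_drop hK hg hL T).trans (add_le_add_right hV _)))
  rw [add_assoc, ← ENNReal.ofReal_add h1 h0]
  gcongr

/-- the cap is small compared to the volume drop -/
theorem IsCut.vol_col (H : IsCut U φ L K U' id ψ) (hK : Side U φ L K) (hg : Met g U) (hL : 0 ≤ L)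
    (T : Tb g U φ (lan (-L) 0) lo hi) (hV : vol g (ψ '' closedBall 0 1) ≤ ENNReal.ofReal V)
    (h0 : 0 ≤ V) (hε : 0 < ε) (hv : (1 + ε) * V ≤ ε * (lo ^ 3 * (4 * π * L))) :
    vol g (U' \ U) + ENNReal.ofReal ε * vol g U' ≤ ENNReal.ofReal ε * vol g U := by
  have := H.vol_drop' hK hg hL T hV h0 (v := V / ε) (by positivity) (by
    rw [← le_sub_iff_add_le, div_le_iff₀ hε]; linarith)
  rw [H.diff hK.sub]
  refine le_trans ?_ (mul_le_mul_right this _)
  rw [mul_add, ← ENNReal.ofReal_mul hε.le, mul_div_cancel₀ _ hε.ne', add_comm]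
  gcongr

end Vale.Agent.P216SG
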