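import Vale.Agent.P216SG.Nkf
import Vale.Agent.P216FB.Plan
import Vale.Agent.P216DC.Resc
import Vale.Agent.P216C.Near

/-! # Centres of necks have unscathed parabolic neighbourhoods -/

open scoped Manifold ContDiff Topology
open Set Real

noncomputable section

namespace Vale.Agent.P216SG

open Vale.Agent.P216R Vale.Agent.P216DC Vale.Agent.P216FA
open Vale.Agent.P216FB (CtlQ)

theorem parB_unresc {M : Type} [TopologicalSpace M] [ChartedSpace E3 M] [IsManifold 𝓘(ℝ, E3) ∞ M]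
    {g : ℝ → Ten E3 M} {U : Set M} {x : M} {Q t r τ K : ℝ} (hQ : 0 < Q)
    (h : ParB (resc g Q t) U x 0 r τ K) : ParB g U x t (r / √Q) (τ / Q) (Q * K) := by
  have h1 : MapsTo (fun s => -(Q * t) + s / Q⁻¹) (Icc (t - τ / Q) t) (Icc (0 - τ) 0) := fun s hs =>
    ⟨by have := mul_le_mul_of_nonneg_left hs.1 hQ.le
        rw [mul_sub, mul_div_cancel₀ _ hQ.ne'] at this
        simp only [div_inv_eq_mul]; linarith,
      by simp only [div_inv_eq_mul]; nlinarith [hs.2]⟩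
  have e : ∀ s, t + (-(Q * t) + s / Q⁻¹) / Q = s := fun s => by field_simp; ring
  obtain ⟨h2, h3⟩ := h
  rw [Par, resc_zero, bl_sc hQ] at h2
  rw [resc_zero, bl_sc hQ] at h3
  have h4 : RF g (Icc (t - τ / Q) t) (bl (g t) U x (r / √Q)) := by
    simpa only [resc, e, smul_smul, inv_mul_cancel₀ hQ.ne', one_smul] using
      h2.resc (inv_pos.2 hQ) _ h1
  refine ⟨h4, fun s hs y hy => ?_⟩
  have := h3 _ (h1 hs) y hy
  rwa [resc, e, rmB_sc (h4.met hs) hy hQ, zero_add, sq_sqrt hQ.le] at this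

theorem ctlQ_rs (S : SCALE) {X : Mf} {F : P216FA.Dat X.M} {P : Cs} {A Q : ℝ} (hQ : 0 < Q)
    (h : CtlQ F P A Q) : (F.rs Q).Ctl P A := by
  have h0 := sqrt_pos.2 hQ
  have e1 : √Q * (A / √Q) = A := by field_simp
  have e2 : Q * (A / Q) = A := by field_simp
  refine ⟨S.rsBas X F _ Q hQ h.bas,
    by simpa only [e1, e2] using S.rsEnv X F _ Q _ _ _ _ _ hQ h.bas h.env, fun W s y h1 h2 => ?_⟩
  have h3 := (S.rsReg X F Q (A / √Q) (A / Q) W s y hQ).1 (by rwa [e1, e2])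
  exact (S.rsCN X _ W y Q _ _ _ _ hQ (S.clo X F _ W _ h.bas
    (S.regSl X F _ _ _ W _ y h.bas h.env.init h3)) h3.mem).2
    (h.cn W _ y h3 ((le_div_iff₀ hQ).1 (h2.trans_eq (sc_sc hQ))))

theorem nkp (S : SCALE) (hW : P216FA.WIN) (hN : WINN) : P216FB.NKP := fun c => by
  obtain ⟨e, he, H⟩ := nkf (10 * c 0 ^ 2)
  refine ⟨e, he, fun P hc hP => ?_⟩
  subst hc
  have c0 := hP.c1 0
  have hP' : Cs.Ok { P with L := 1 / (8 * P.c 0) } e := { hP with L0 := by positivity }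
  obtain ⟨a₁, h1, W⟩ := hW _ e hP'
  obtain ⟨a₂, h2, N⟩ := hN _ e hP'
  have ha : 0 < min a₁ a₂ := lt_min h1 h2
  obtain ⟨l₁, hl₁, r, hr, W⟩ := W _ ⟨ha, min_le_left _ _⟩ 0 0
  obtain ⟨l₂, hl₂, N⟩ := N _ ⟨ha, min_le_right _ _⟩ r 0
  generalize min a₁ a₂ = a at *
  refine ⟨1 / (8 * P.c 0), by positivity, min a (a ^ 2 / 4), by positivity, 16, max l₁ l₂,
    1 / (8 * P.c 0), by positivity, by positivity, fun M _ _ _ _ _ F σ hδ hσ e1 hF hx => ?_⟩
  have hQ : 0 < Sc (F.g F.t) F.x := by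
    by_contra! k
    nlinarith [sq_nonneg σ]
  have e2 : Sc (F.g F.t) F.x = σ⁻¹ ^ 2 := by field_simp; linarith
  have h3 := ctlQ_rs S (X := ⟨M⟩) hQ hF
  generalize Sc (F.g F.t) F.x = Q at hQ e2 h3 hF
  have e3 : √Q = σ⁻¹ := by rw [e2, sqrt_sq (by positivity)]
  have e4 : (F.rs Q).g 0 = σ⁻¹ ^ 2 • F.g F.t := e2 ▸ resc_zero _ _ _
  have e5 : Sc ((F.rs Q).g 0) F.x = 1 := by
    rw [e4, sc_sc (by positivity)]; field_simp; linarith
  have hr' : ∀ r ≥ 0, (F.rs Q).Reg r 0 F.U 0 F.x := fun r hr =>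
    ⟨.inl ⟨rfl, rfl⟩, (sub_zero _).le, hF.bas.mem, le_add_of_nonneg_right hr⟩
  have hm := hF.bas.sf.met hF.bas.sl
  have l1 : 1 / (8 * P.c 0) ≤ 1 := (div_le_one (by positivity)).2 (by linarith)
  rcases W ⟨M⟩ _ _ _ _ 1 (S.ctlMono _ _ _ _ _ h3 hl₁ (le_max_left _ _)) (hr' 0 le_rfl)
    (max_le l1 le_rfl) e5.le with k | ⟨z, k⟩
  · have := parB_unresc hQ k
    rw [e3, e2, inv_pow, ← div_eq_inv_mul, mul_one] at this
    refine P216C.parB_mono this hm ?_ ?_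
    · simpa [wr] using mul_le_mul_of_nonneg_right (min_le_left a _) hσ.le
    · simpa [wt] using mul_le_mul_of_nonneg_right (min_le_right a (a ^ 2 / 4)) (sq_nonneg σ)
  · refine (N ⟨M⟩ _ _ _ _ z (S.ctlMono _ _ _ _ _ h3 hl₂ (le_max_right _ _)) (hr' r hr)
      (max_le (by rw [e5]; field_simp; rfl) e5.ge) ((le_div_iff₀ (by positivity)).2 ?_) ?_
        (e5.symm ▸ k)).elim
    · have := (le_div_iff₀ (by positivity)).1 hδ
      change F.δ * P.c 0 * 8 ≤ 1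
      linarith
    · have := hx.smul (inv_pos.2 hσ)
      rw [inv_mul_cancel₀ hσ.ne', ← e4] at this
      rw [sg, e5, sqrt_one, inv_one]
      exact (H ⟨M⟩ _ _ _ _ _ (e4 ▸ hm.smul (by positivity)) (hF.bas.sf.sl_hs hF.bas.sl) hP.εe this).2

end Vale.Agent.P216SG
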