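import Vale.Agent.P216SG.Cut

/-! # Metric geometry of parametrised tubes -/

open scoped Manifold ContDiff Topology ENNReal RealInnerProductSpace
open Set Metric Real Filter

noncomputable section

namespace Vale.Agent.P216SG

open Vale.Agent.P216R

variable {M : Type} [TopologicalSpace M] [ChartedSpace E3 M]
  {g : Ten E3 M} {U S T : Set M} {φ : E3 → M} {A B : Set E3} {G : E3 → Bil E3}
  {a b c d e L lo hi : ℝ} {x y : E3} {p q : M}

/-- the level of a point: the cylinder coordinate -/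
def lv (x : E3) : ℝ := log ‖x‖

/-- `φ` embeds `A` and the metric lies between `lo²` and `hi²` times `|x|⁻² |dx|²` -/
structure Tb (g : Ten E3 M) (U : Set M) (φ : E3 → M) (A : Set E3) (lo hi : ℝ) : Prop where
  pos : 0 < lo
  le : lo ≤ hi
  emb : Emb φ A U
  low : ∀ x ∈ A, ∀ v, lo ^ 2 * ‖v‖ ^ 2 ≤ ‖x‖ ^ 2 * comap φ g x v v
  up : ∀ x ∈ A, ∀ v, ‖x‖ ^ 2 * comap φ g x v v ≤ hi ^ 2 * ‖v‖ ^ 2

/-- the annulus between two levels -/
def lan (a b : ℝ) : Set E3 := ann (exp a) (exp b)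

lemma anl_eq : anl L = lan (-L) L := rfl

lemma ann_one : ann 1 (exp L) = lan 0 L := by rw [lan, exp_zero]

lemma lan_pos (h : x ∈ lan a b) : 0 < ‖x‖ := (exp_pos _).trans h.1

lemma mem_lan : x ∈ lan a b ↔ x ≠ 0 ∧ a < lv x ∧ lv x < b := by
  refine ⟨fun h => ⟨norm_pos_iff.1 (lan_pos h), (lt_log_iff_exp_lt (lan_pos h)).2 h.1,
    (log_lt_iff_lt_exp (lan_pos h)).2 h.2⟩, fun h => ?_⟩
  have := norm_pos_iff.2 h.1
  exact ⟨(lt_log_iff_exp_lt this).1 h.2.1, (log_lt_iff_lt_exp this).1 h.2.2⟩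

lemma lan_mono {a' b' : ℝ} (ha : a' ≤ a) (hb : b ≤ b') : lan a b ⊆ lan a' b' :=
  ann_mono (exp_le_exp.2 ha) (exp_le_exp.2 hb)

lemma isOpen_lan : IsOpen (lan a b) := isOpen_ann

lemma preconn_lan : IsPreconnected (lan a b) := preconn_ann (exp_pos _).le

lemma lv_of_mem (h : x ∈ sphere (0 : E3) (exp c)) : lv x = c := by
  rw [lv, mem_sphere_zero_iff_norm.1 h, log_exp]

lemma exp_lv (h : x ≠ 0) : exp (lv x) = ‖x‖ := exp_log (norm_pos_iff.2 h)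

lemma mem_sphere_lv (h : x ≠ 0) : x ∈ sphere (0 : E3) (exp (lv x)) :=
  mem_sphere_zero_iff_norm.2 (exp_lv h).symm

lemma sphere_sub_lan (h1 : a < c) (h2 : c < b) : sphere (0 : E3) (exp c) ⊆ lan a b := fun x hx => by
  rw [mem_sphere_zero_iff_norm] at hx
  exact ⟨hx ▸ exp_lt_exp.2 h1, hx ▸ exp_lt_exp.2 h2⟩

lemma cann_sub_lan (h1 : a < c) (h2 : d < b) : cann (exp c) (exp d) ⊆ lan a b := fun _ hx =>
  ⟨(exp_lt_exp.2 h1).trans_le hx.1, hx.2.trans_lt (exp_lt_exp.2 h2)⟩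

lemma lv_smul (c : ℝ) (h : x ≠ 0) : lv (exp c • x) = c + lv x := by
  rw [lv, norm_smul, norm_of_nonneg (exp_pos c).le,
    log_mul (exp_pos c).ne' (norm_ne_zero_iff.2 h), log_exp, lv]

lemma contDiffAt_lv {n : WithTop ℕ∞} (h : x ≠ 0) : ContDiffAt ℝ n lv x :=
  (contDiffAt_norm ℝ h).log (norm_ne_zero_iff.2 h)

lemma fderiv_lv_le (h : x ≠ 0) (v : E3) : ‖x‖ * |fderiv ℝ lv x v| ≤ ‖v‖ := by
  have h0 := norm_ne_zero_iff.2 h
  have h1 := ((contDiffAt_norm (n := 1) ℝ h).differentiableAt one_ne_zero).hasFDerivAt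
  have h2 : fderiv ℝ lv x = _ := (h1.log h0).fderiv
  have h3 := (fderiv ℝ (fun x : E3 => ‖x‖) x).le_of_opNorm_le
    (norm_fderiv_le_of_lipschitz ℝ lipschitzWith_one_norm) v
  rw [h2, smul_apply, smul_eq_mul, abs_mul, abs_inv, abs_norm,
    mul_inv_cancel_left₀ h0]
  simpa using h3

section model

lemma ed_le_curve (hi0 : 0 ≤ hi) (h0 : (0 : E3) ∉ A)
    (hG : ∀ x ∈ A, ∀ v, ‖x‖ ^ 2 * G x v v ≤ hi ^ 2 * ‖v‖ ^ 2) {γ : ℝ → E3} (hc : ContDiff ℝ 1 γ)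
    (hab : a ≤ b) (hm : ∀ t ∈ Icc a b, γ t ∈ A) (hn : ∀ t, ‖deriv γ t‖ ≤ ‖γ t‖) :
    ed G A (γ a) (γ b) ≤ ENNReal.ofReal (hi * (b - a)) := by
  rw [ENNReal.ofReal_mul hi0]
  refine (ed_le_len ⟨hab, hc.contMDiff.contMDiffOn, hm⟩).trans (len_le_const fun t ht => ?_)
  have h1 := hm t (Ioo_subset_Icc_self ht)
  have h2 : 0 < ‖γ t‖ ^ 2 := pow_pos (norm_pos_iff.2 fun k => h0 (k ▸ h1)) 2
  rw [spd, vel_model, sqrt_le_left hi0]
  refine le_of_mul_le_mul_left ((hG _ h1 _).trans ?_) h2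
  rw [mul_comm]
  gcongr
  exact hn t

variable (hi0 : 0 ≤ hi) (hG : ∀ x ∈ lan a b, ∀ v, ‖x‖ ^ 2 * G x v v ≤ hi ^ 2 * ‖v‖ ^ 2)
include hi0 hG

lemma ed_rad (hx : x ∈ lan a b) (hc : 0 ≤ c) (hb : c + lv x < b) :
    ed G (lan a b) x (exp c • x) ≤ ENNReal.ofReal (hi * c) := by
  obtain ⟨h0, h1, h2⟩ := mem_lan.1 hx
  have := ed_le_curve hi0 (fun k => (mem_lan.1 k).1 rfl) hG (γ := fun t => exp t • x)
    (by fun_prop) hc (fun t ht => mem_lan.2 ⟨smul_ne_zero (exp_pos t).ne' h0, by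
      rw [lv_smul t h0]; linarith [ht.1], by rw [lv_smul t h0]; linarith [ht.2]⟩) fun t => by
      rw [((hasDerivAt_exp t).smul_const x).deriv]
  simpa using this

lemma ed_arc (hx : x ∈ lan a b) (hy : ‖y‖ = ‖x‖) (ho : ⟪x, y⟫ = 0) :
    ed G (lan a b) x y ≤ ENNReal.ofReal (hi * (π / 2)) := by
  have k : ∀ s t : ℝ, s ^ 2 + t ^ 2 = 1 → ‖s • x + t • y‖ = ‖x‖ := fun s t h => by
    rw [← sq_eq_sq₀ (norm_nonneg _) (norm_nonneg _), norm_add_sq_real, inner_smul_left,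
      inner_smul_right, ho, norm_smul, norm_smul, hy, mul_pow, mul_pow, norm_eq_abs, norm_eq_abs,
      sq_abs, sq_abs]
    linear_combination ‖x‖ ^ 2 * h
  have := ed_le_curve hi0 (fun k => (mem_lan.1 k).1 rfl) hG (γ := fun t => cos t • x + sin t • y)
    (by fun_prop) pi_div_two_pos.le
    (fun t _ => by simpa only [lan, ann, mem_ofPred, k _ _ (cos_sq_add_sin_sq t)] using hx) fun t => by
      rw [(((hasDerivAt_cos t).smul_const x).fun_add ((hasDerivAt_sin t).smul_const y)).deriv,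
        k _ _ (cos_sq_add_sin_sq t), k _ _ (by rw [neg_sq, sin_sq_add_cos_sq])]
  simpa using this

lemma ed_sph (hx : x ∈ lan a b) (hy : ‖y‖ = ‖x‖) :
    ed G (lan a b) x y ≤ ENNReal.ofReal (hi * π) := by
  obtain ⟨z, hz, h0⟩ := Submodule.exists_mem_ne_zero_of_ne_bot
    (p := (Submodule.span ℝ {x, y})ᗮ) fun k => by
      have h1 := finrank_span_le_card (R := ℝ) ({x, y} : Set E3)
      rw [Submodule.orthogonal_eq_bot_iff.1 k, finrank_top, finrank_euclideanSpace_fin] at h1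
      have := (Set.toFinset_insert (a := x) (s := {y})).symm ▸ h1
      exact absurd (this.trans (Finset.card_insert_le _ _)) (by simp)
  have h1 : ‖(‖x‖ / ‖z‖) • z‖ = ‖x‖ := by
    rw [norm_smul, norm_div, norm_norm, norm_norm, div_mul_cancel₀ _ (norm_ne_zero_iff.2 h0)]
  have h2 : ∀ u ∈ ({x, y} : Set E3), ⟪u, (‖x‖ / ‖z‖) • z⟫ = 0 := fun u hu => by
    rw [inner_smul_right, hz u (Submodule.subset_span hu), mul_zero]
  have hy' : y ∈ lan a b := by simpa only [lan, ann, mem_ofPred, hy] using hx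
  refine (ed_triangle x ((‖x‖ / ‖z‖) • z) y).trans ?_
  rw [ed_comm (y := y), show hi * π = hi * (π / 2) + hi * (π / 2) by ring,
    ENNReal.ofReal_add (by positivity) (by positivity)]
  exact add_le_add (ed_arc hi0 hG hx h1 (h2 x (by simp)))
    (ed_arc hi0 hG hy' (h1.trans hy.symm) (h2 y (by simp)))

lemma ed_lan_le (hx : x ∈ lan a b) (hy : y ∈ lan a b) :
    ed G (lan a b) x y ≤ ENNReal.ofReal (hi * (|lv x - lv y| + π)) := by
  wlog h : lv x ≤ lv y generalizing x y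
  · rw [ed_comm, abs_sub_comm]; exact this hy hx (le_of_not_ge h)
  have h0 := (mem_lan.1 hx).1
  have h1 : ‖exp (lv y - lv x) • x‖ = ‖y‖ := by
    rw [← exp_lv (smul_ne_zero (exp_pos _).ne' h0), lv_smul _ h0, sub_add_cancel,
      exp_lv (mem_lan.1 hy).1]
  refine (ed_triangle x (exp (lv y - lv x) • x) y).trans ?_
  rw [abs_sub_comm, abs_of_nonneg (sub_nonneg.2 h), mul_add, ENNReal.ofReal_add
    (mul_nonneg hi0 (sub_nonneg.2 h)) (by positivity), ed_comm (y := y)]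
  exact add_le_add (ed_rad hi0 hG hx (sub_nonneg.2 h) (by simpa using (mem_lan.1 hy).2.2))
    (ed_sph hi0 hG hy h1)

omit hi0 hG in
lemma lv_le_ed (lo0 : 0 < lo) (hA : IsOpen A) (h0 : (0 : E3) ∉ A)
    (hG : ∀ x ∈ A, ∀ v, lo ^ 2 * ‖v‖ ^ 2 ≤ ‖x‖ ^ 2 * G x v v) (x y : E3) :
    ENNReal.ofReal (lo * |lv x - lv y|) ≤ ed G A x y := by
  have h1 : ∀ x ∈ A, x ≠ 0 := fun x hx k => h0 (k ▸ hx)
  have := lip_of_mfderiv (g := G) (φ := fun x => lo * lv x) hA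
    (fun x hx => (contDiffAt_const.mul (contDiffAt_lv (h1 x hx))).contMDiffAt.contMDiffWithinAt)
    one_pos (fun x hx v => by
      have h2 := norm_pos_iff.2 (h1 x hx)
      rw [mdF, mfderiv_eq_fderiv, one_mul, fderiv_const_mul
        ((contDiffAt_lv (n := 1) (h1 x hx)).differentiableAt one_ne_zero)]
      refine le_sqrt_of_sq_le (le_of_mul_le_mul_left (le_trans ?_ (hG x hx v)) (pow_pos h2 2))
      rw [← mul_pow, ← mul_pow, smul_apply, norm_smul, norm_of_nonneg lo0.le,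
        mul_left_comm]
      gcongr
      exact fderiv_lv_le (h1 x hx) v) y x
  rwa [ENNReal.ofReal_one, one_mul, ed_comm, ← mul_sub, ← ofReal_norm, norm_mul,
    norm_of_nonneg lo0.le] at this

end model

variable [IsManifold 𝓘(ℝ, E3) ∞ M]

/-- a connected set that leaves an embedded open set meets its frontier -/
lemma Emb.hit (h : Emb φ A U) (hU : IsOpen U) (hs : Hs U) {C : Set E3} (hC : IsCompact C)
    (hCA : C ⊆ A) (hB : IsOpen B) (hBC : B ⊆ C) (hS : IsPreconnected S) (hSU : S ⊆ U)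
    (hx : x ∈ B) (hxS : φ x ∈ S) (hn : ¬S ⊆ φ '' B) : ∃ y ∈ C \ B, φ y ∈ S := by
  by_contra! k
  refine hn (hS.subset_left_of_subset_union (h.isOpen_image hB (hBC.trans hCA))
    (h.isOpen_diff hs hU hC hCA) (disjoint_left.2 fun p h1 h2 => h2.2 (image_mono hBC h1))
    (fun p hp => ?_) ⟨_, hxS, x, hx, rfl⟩)
  by_cases h1 : p ∈ φ '' C
  · obtain ⟨y, hy, rfl⟩ := h1
    exact .inl ⟨y, by_contra fun h2 => k y ⟨hy, h2⟩ hp, rfl⟩
  · exact .inr ⟨hSU hp, h1⟩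

lemma Emb.hit_lan (h : Emb φ (lan a b) U) (hU : IsOpen U) (hs : Hs U) (hc : a < c) (hd : d < b)
    (hS : IsPreconnected S) (hSU : S ⊆ U) (hx : x ∈ lan c d) (hxS : φ x ∈ S)
    (hn : ¬S ⊆ φ '' lan c d) : ∃ y ∈ lan a b, φ y ∈ S ∧ (lv y = c ∨ lv y = d) := by
  obtain ⟨y, hy, k⟩ := h.hit hU hs isCompact_cann (cann_sub_lan hc hd) isOpen_lan
    (fun _ h => ⟨h.1.le, h.2.le⟩) hS hSU hx hxS hn
  refine ⟨y, cann_sub_lan hc hd hy.1, k, ?_⟩
  rcases hy.1.1.eq_or_lt with e | e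
  · exact .inl (by rw [lv, ← e, log_exp])
  · exact .inr (by rw [lv, le_antisymm hy.1.2 (not_lt.1 fun k => hy.2 ⟨e, k⟩), log_exp])

namespace Tb

omit [IsManifold 𝓘(ℝ, E3) ∞ M] in
lemma mono (h : Tb g U φ A lo hi) (hB : IsOpen B) (hBA : B ⊆ A) : Tb g U φ B lo hi :=
  ⟨h.pos, h.le, h.emb.mono hB hBA, fun x hx => h.low x (hBA hx), fun x hx => h.up x (hBA hx)⟩

omit [IsManifold 𝓘(ℝ, E3) ∞ M] in
lemma hi_pos (h : Tb g U φ A lo hi) : 0 < hi := h.pos.trans_le h.le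

omit [IsManifold 𝓘(ℝ, E3) ∞ M] in
lemma weaken (h : Tb g U φ A lo hi) {lo' hi' : ℝ} (h0 : 0 < lo') (h1 : lo' ≤ lo) (h2 : hi ≤ hi') :
    Tb g U φ A lo' hi' :=
  ⟨h0, h1.trans (h.le.trans h2), h.emb, fun x hx v => le_trans (by gcongr) (h.low x hx v),
    fun x hx v => (h.up x hx v).trans (by have := h.hi_pos; gcongr)⟩

lemma ed_le (h : Tb g U φ (lan a b) lo hi) (hx : x ∈ lan a b) (hy : y ∈ lan a b) :
    ed g U (φ x) (φ y) ≤ ENNReal.ofReal (hi * (|lv x - lv y| + π)) :=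
  (h.emb.ld.ed_le h.emb.mem x y).trans (ed_lan_le h.hi_pos.le h.up hx hy)

lemma ed_le_of_eq (h : Tb g U φ (lan a b) lo hi) (hx : x ∈ lan a b) (hy : y ∈ lan a b)
    (e : lv x = lv y) : ed g U (φ x) (φ y) ≤ ENNReal.ofReal (hi * π) := by
  simpa [e] using h.ed_le hx hy

lemma ed_rad (h : Tb g U φ (lan a b) lo hi) (hx : x ∈ lan a b) (hc : 0 ≤ c) (hb : c + lv x < b) :
    ed g U (φ x) (φ (exp c • x)) ≤ ENNReal.ofReal (hi * c) :=
  (h.emb.ld.ed_le h.emb.mem _ _).trans (P216SG.ed_rad h.hi_pos.le h.up hx hc hb)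

/-- small balls lie in the tube, and the level is Lipschitz on them -/
lemma pull (h : Tb g U φ (lan a b) lo hi) (hs : Hs U) (hx : x ∈ lan a b) (h1 : a + d ≤ lv x)
    (h2 : lv x + d ≤ b) (hp : ed g U (φ x) p < ENNReal.ofReal (lo * d)) :
    ∃ y ∈ lan a b, φ y = p ∧ ENNReal.ofReal (lo * |lv x - lv y|) ≤ ed g U (φ x) p := by
  obtain ⟨r, r0, hr, hr'⟩ := ENNReal.lt_iff_exists_real_btwn.1 hp
  have h3 : r / lo < d := (div_lt_iff₀' h.pos).2 ((ENNReal.ofReal_lt_ofReal_iff_of_nonneg r0).1 hr')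
  have h0 : (0 : E3) ∉ lan a b := fun k => (mem_lan.1 k).1 rfl
  have hl := lv_le_ed h.pos isOpen_lan h0 h.low x
  have hK := cann_sub_lan (show a < lv x - r / lo by linarith) (show lv x + r / lo < b by linarith)
  obtain ⟨y, hy, rfl, k⟩ := ed_pull (g := comap φ g) h.emb.ld h.emb.inj h.emb.mem hs one_pos
    (fun _ _ _ => by simp) isCompact_cann hK hx (fun y hy => by
      rw [ENNReal.ofReal_one, one_mul] at hy
      have h4 := norm_pos_iff.2 (mem_lan.1 (mem_of_ed_ne hy.ne_top).2).1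
      have h5 := abs_le.1 ((le_div_iff₀' h.pos).2
        ((ENNReal.ofReal_le_ofReal_iff r0).1 ((hl y).trans hy.le)))
      exact ⟨(le_log_iff_exp_le h4).1 (by rw [← lv]; linarith [h5.2]),
        (log_le_iff_le_exp h4).1 (by rw [← lv]; linarith [h5.1])⟩) hr
  exact ⟨y, hK hy, rfl, (hl y).trans (by simpa using k)⟩

lemma bl_sub (h : Tb g U φ (lan a b) lo hi) (hs : Hs U) (hx : x ∈ lan a b) (h1 : a + d ≤ lv x)
    (h2 : lv x + d ≤ b) : bl g U (φ x) (lo * d) ⊆ φ '' lan (lv x - d) (lv x + d) := fun p hp => by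
  obtain ⟨y, hy, rfl, k⟩ := h.pull hs hx h1 h2 hp
  have := abs_lt.1 (lt_of_mul_lt_mul_left ((ENNReal.ofReal_lt_ofReal_iff_of_nonneg
    (mul_nonneg h.pos.le (abs_nonneg _))).1 (k.trans_lt hp)) h.pos.le)
  exact ⟨y, mem_lan.2 ⟨(mem_lan.1 hy).1, by linarith [this.2], by linarith [this.1]⟩, rfl⟩

/-- points outside a subtube are far away -/
lemma le_ed (h : Tb g U φ (lan a b) lo hi) (hs : Hs U) (hx : x ∈ lan a b) (h1 : a + d ≤ lv x)
    (h2 : lv x + d ≤ b) (hp : p ∉ φ '' lan (lv x - d) (lv x + d)) :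
    ENNReal.ofReal (lo * d) ≤ ed g U (φ x) p := not_lt.1 fun k => hp (h.bl_sub hs hx h1 h2 k)

lemma le_ed_lv (h : Tb g U φ (lan a b) lo hi) (hs : Hs U) (hx : x ∈ lan a b) (hy : y ∈ lan a b)
    (h1 : a + d ≤ lv x) (h2 : lv x + d ≤ b) (hd : d ≤ |lv x - lv y|) :
    ENNReal.ofReal (lo * d) ≤ ed g U (φ x) (φ y) :=
  h.le_ed hs hx h1 h2 fun k => by
    have := mem_lan.1 ((h.emb.mem_image (lan_mono (by linarith) h2) hy).1 k)
    exact hd.not_gt (abs_lt.2 ⟨by linarith [this.2.2], by linarith [this.2.1]⟩)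

omit [IsManifold 𝓘(ℝ, E3) ∞ M] in
lemma d_pos (h : Tb g U φ A lo hi) (he : 0 ≤ e) (hde : hi * π + e < 2 * lo * d) : 0 < d := by
  have := h.hi_pos
  exact (mul_pos_iff_of_pos_left (by linarith [h.pos])).1 (lt_of_le_of_lt (by positivity) hde)

/-- two almost minimising branches from a point cannot both reach the same level -/
lemma not_both (h : Tb g U φ (lan a b) lo hi) (hs : Hs U) (hx : x ∈ lan a b) {y z : E3}
    (hy : y ∈ lan a b) (hz : z ∈ lan a b) (h1 : a + d ≤ lv x) (h2 : lv x + d ≤ b)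
    (hd : d ≤ |lv x - lv y|) (hyz : lv y = lv z) (he : 0 ≤ e) (hde : hi * π + e < 2 * lo * d) :
    ¬ed g U (φ x) (φ y) + ed g U (φ x) (φ z) ≤ ed g U (φ y) (φ z) + ENNReal.ofReal e := fun k => by
  have h3 : 0 ≤ hi * π := by have := h.hi_pos; positivity
  have h4 : 0 ≤ lo * d := by linarith
  have := ((add_le_add (h.le_ed_lv hs hx hy h1 h2 hd)
    (h.le_ed_lv hs hx hz h1 h2 (hyz ▸ hd))).trans k).trans
    (add_le_add_left (h.ed_le_of_eq hy hz hyz) _)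
  rw [← ENNReal.ofReal_add h4 h4, ← ENNReal.ofReal_add h3 he,
    ENNReal.ofReal_le_ofReal_iff (add_nonneg h3 he)] at this
  linarith

/-- an almost minimising path through the middle with both ends outside meets every level -/
theorem cross (h : Tb g U φ (lan a b) lo hi) (hU : IsOpen U) (hs : Hs U) (hS : IsPreconnected S)
    (hT : IsPreconnected T) (hSU : S ⊆ U) (hTU : T ⊆ U) (hx : x ∈ lan a b) (hxS : φ x ∈ S)
    (hxT : φ x ∈ T) (nS : ¬S ⊆ φ '' lan a b) (nT : ¬T ⊆ φ '' lan a b) (he : 0 ≤ e)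
    (hex : ∀ p ∈ S, ∀ q ∈ T, ed g U (φ x) p + ed g U (φ x) q ≤ ed g U p q + ENNReal.ofReal e)
    (hde : hi * π + e < 2 * lo * d) (h1 : a + d < lv x) (h2 : lv x + d < b) (ha : a < c)
    (hb : c < b) : ∃ y ∈ lan a b, lv y = c ∧ φ y ∈ S ∪ T := by
  have d0 := h.d_pos he hde
  have key : ∀ s t, a < s → t < b → s < lv x → lv x < t →
      (∃ y ∈ lan a b, φ y ∈ S ∧ (lv y = s ∨ lv y = t)) ∧
        ∃ y ∈ lan a b, φ y ∈ T ∧ (lv y = s ∨ lv y = t) := fun s t k1 k2 k3 k4 =>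
    have k5 := mem_lan.2 ⟨(mem_lan.1 hx).1, k3, k4⟩
    have k6 := image_mono (f := φ) (lan_mono k1.le k2.le)
    ⟨h.emb.hit_lan hU hs k1 k2 hS hSU k5 hxS fun k => nS (k.trans k6),
      h.emb.hit_lan hU hs k1 k2 hT hTU k5 hxT fun k => nT (k.trans k6)⟩
  rcases lt_trichotomy c (lv x) with k | rfl | k
  · obtain ⟨⟨y, hy, k1, k2 | k2⟩, z, hz, k3, k4 | k4⟩ :=
      key c (lv x + d) ha h2 k (by linarith)
    exacts [⟨y, hy, k2, .inl k1⟩, ⟨y, hy, k2, .inl k1⟩, ⟨z, hz, k4, .inr k3⟩,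
      (h.not_both hs hx hy hz h1.le h2.le (by rw [k2]; simp [abs_of_pos d0])
        (k2.trans k4.symm) he hde (hex _ k1 _ k3)).elim]
  · exact ⟨x, hx, rfl, .inl hxS⟩
  · obtain ⟨⟨y, hy, k1, k2 | k2⟩, z, hz, k3, k4 | k4⟩ :=
      key (lv x - d) c (by linarith) hb (by linarith) k
    exacts [(h.not_both hs hx hy hz h1.le h2.le (by rw [k2]; simp [abs_of_pos d0])
        (k2.trans k4.symm) he hde (hex _ k1 _ k3)).elim,
      ⟨z, hz, k4, .inr k3⟩, ⟨y, hy, k2, .inl k1⟩, ⟨y, hy, k2, .inl k1⟩]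

/-- an almost minimising path with both ends outside a capped tube stays near the open end -/
theorem avoid (h : Tb g U φ (lan a b) lo hi) (hc : Emb φ (ball 0 (exp b)) U) (hU : IsOpen U)
    (hs : Hs U) (hS : IsPreconnected S) (hT : IsPreconnected T) (hSU : S ⊆ U) (hTU : T ⊆ U)
    (hx : x ∈ ball 0 (exp b)) (hxS : φ x ∈ S) (hxT : φ x ∈ T) (nS : ¬S ⊆ φ '' ball 0 (exp b))
    (nT : ¬T ⊆ φ '' ball 0 (exp b)) (he : 0 ≤ e)
    (hex : ∀ p ∈ S, ∀ q ∈ T, ed g U (φ x) p + ed g U (φ x) q ≤ ed g U p q + ENNReal.ofReal e)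
    (hde : hi * π + e < 2 * lo * d) (h1 : a + 2 * d ≤ b) : exp (b - 2 * d) < ‖x‖ := by
  have d0 := h.d_pos he hde
  have h2 : exp (b - d) < exp b := exp_lt_exp.2 (by linarith)
  by_contra! k
  have key : ∀ S ⊆ U, IsPreconnected S → φ x ∈ S → ¬S ⊆ φ '' ball 0 (exp b) →
      ∃ y ∈ lan a b, φ y ∈ S ∧ lv y = b - d ∧ ENNReal.ofReal (lo * d) ≤ ed g U (φ x) (φ y) := by
    intro S k1 k2 k3 k4
    obtain ⟨y, hy, k5⟩ := hc.hit hU hs (isCompact_closedBall 0 _) (closedBall_subset_ball h2)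
      isOpen_ball ball_subset_closedBall k2 k1
      (mem_ball_zero_iff.2 (k.trans_lt (exp_lt_exp.2 (by linarith)))) k3
      fun k => k4 (k.trans (image_mono (ball_subset_ball h2.le)))
    rw [closedBall_sdiff_ball] at hy
    have k6 := sphere_sub_lan (show a < b - d by linarith) (show b - d < b by linarith) hy
    have k7 := lv_of_mem hy
    refine ⟨y, k6, k5, k7, ed_comm.ge.trans' (h.le_ed hs k6 (by linarith) (by linarith) fun k8 => ?_)⟩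
    have := (hc.mem_image ((lan_mono le_rfl (by linarith)).trans ann_sub_ball) hx).1 k8
    exact this.1.not_ge (k.trans_eq (by rw [k7]; ring_nf))
  obtain ⟨y, hy, k1, k2, k3⟩ := key S hSU hS hxS nS
  obtain ⟨z, hz, k4, k5, k6⟩ := key T hTU hT hxT nT
  have h3 : 0 ≤ hi * π := by have := h.hi_pos; positivity
  have h4 : 0 ≤ lo * d := mul_nonneg h.pos.le d0.le
  have := ((add_le_add k3 k6).trans (hex _ k1 _ k4)).trans
    (add_le_add_left (h.ed_le_of_eq hy hz (k2.trans k5.symm)) _)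
  rw [← ENNReal.ofReal_add h4 h4, ← ENNReal.ofReal_add h3 he,
    ENNReal.ofReal_le_ofReal_iff (add_nonneg h3 he)] at this
  linarith

end Tb

/-- a minimising segment parametrised by arc length -/
structure Seg (g : Ten E3 M) (U : Set M) (γ : ℝ → M) (L : ℝ) : Prop where
  cont : ContinuousOn γ (Icc 0 L)
  min : ∀ s ∈ Icc 0 L, ∀ t ∈ Icc 0 L, ed g U (γ s) (γ t) = ENNReal.ofReal |s - t|

variable {γ : ℝ → M} {t : ℝ}

omit [IsManifold 𝓘(ℝ, E3) ∞ M] in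
lemma seg_of_minGeo (h : MinGeo g U γ L) : Seg g U γ L := by
  obtain ⟨ε, h0, h1, -⟩ := h.geo
  exact ⟨h1.cont.mono fun t ht => ⟨by linarith [ht.1], by linarith [ht.2]⟩, h.min⟩

omit [IsManifold 𝓘(ℝ, E3) ∞ M] in
lemma Seg.mem (h : Seg g U γ L) : MapsTo γ (Icc 0 L) U := fun t ht =>
  (mem_of_ed_ne (h.min t ht t ht ▸ ENNReal.ofReal_ne_top)).1

omit [IsManifold 𝓘(ℝ, E3) ∞ M] in
lemma Seg.split (h : Seg g U γ L) (ht : t ∈ Icc 0 L) : IsPreconnected (γ '' Icc 0 t) ∧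
    IsPreconnected (γ '' Icc t L) ∧ γ '' Icc 0 t ⊆ U ∧ γ '' Icc t L ⊆ U ∧ ∀ p ∈ γ '' Icc 0 t,
      ∀ q ∈ γ '' Icc t L, ed g U (γ t) p + ed g U (γ t) q ≤ ed g U p q + ENNReal.ofReal 0 := by
  have h1 : Icc 0 t ⊆ Icc 0 L := Icc_subset_Icc_right ht.2
  have h2 : Icc t L ⊆ Icc 0 L := Icc_subset_Icc_left ht.1
  refine ⟨isPreconnected_Icc.image _ (h.cont.mono h1), isPreconnected_Icc.image _ (h.cont.mono h2),
    (h.mem.mono_left h1).image_subset, (h.mem.mono_left h2).image_subset, ?_⟩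
  rintro _ ⟨u, hu, rfl⟩ _ ⟨v, hv, rfl⟩
  rw [h.min t ht u (h1 hu), h.min t ht v (h2 hv), h.min u (h1 hu) v (h2 hv), ENNReal.ofReal_zero,
    add_zero, ← ENNReal.ofReal_add (abs_nonneg _) (abs_nonneg _), abs_of_nonneg (sub_nonneg.2 hu.2),
    abs_of_nonpos (sub_nonpos.2 hv.1), abs_of_nonpos (sub_nonpos.2 (hu.2.trans hv.1))]
  exact le_of_eq (by congr 1; ring)

theorem Tb.cross_seg (h : Tb g U φ (lan a b) lo hi) (hU : IsOpen U) (hs : Hs U) (hγ : Seg g U γ L)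
    (ht : t ∈ Icc 0 L) (hx : x ∈ lan a b) (e : γ t = φ x) (n0 : γ 0 ∉ φ '' lan a b)
    (nL : γ L ∉ φ '' lan a b) (hd : hi * π < 2 * lo * d) (h1 : a + d < lv x) (h2 : lv x + d < b)
    (ha : a < c) (hb : c < b) : ∃ s ∈ Icc 0 L, ∃ y ∈ lan a b, lv y = c ∧ γ s = φ y := by
  obtain ⟨k1, k2, k3, k4, k5⟩ := hγ.split ht
  obtain ⟨y, hy, k6, ⟨s, hs, k7⟩ | ⟨s, hs, k7⟩⟩ := h.cross hU hs k1 k2 k3 k4 hx
    ⟨t, ⟨ht.1, le_rfl⟩, e⟩ ⟨t, ⟨le_rfl, ht.2⟩, e⟩ (fun k => n0 (k ⟨0, ⟨le_rfl, ht.1⟩, rfl⟩))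
    (fun k => nL (k ⟨L, ⟨ht.2, le_rfl⟩, rfl⟩)) le_rfl (e ▸ k5) (by rwa [add_zero]) h1 h2 ha hb
  exacts [⟨s, ⟨hs.1, hs.2.trans ht.2⟩, y, hy, k6, k7⟩, ⟨s, ⟨ht.1.trans hs.1, hs.2⟩, y, hy, k6, k7⟩]

/-- every point of a tube crossed by a minimising segment is close to the segment -/
theorem Tb.near_seg (h : Tb g U φ (lan a b) lo hi) (hU : IsOpen U) (hs : Hs U) (hγ : Seg g U γ L)
    (ht : t ∈ Icc 0 L) (hx : x ∈ lan a b) (e : γ t = φ x) (n0 : γ 0 ∉ φ '' lan a b)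
    (nL : γ L ∉ φ '' lan a b) (hd : hi * π < 2 * lo * d) (h1 : a + d < lv x) (h2 : lv x + d < b)
    (hy : y ∈ lan a b) : ∃ s ∈ Icc 0 L, ed g U (φ y) (γ s) ≤ ENNReal.ofReal (hi * π) := by
  obtain ⟨s, hs, z, hz, k1, k2⟩ := h.cross_seg hU hs hγ ht hx e n0 nL hd h1 h2
    (mem_lan.1 hy).2.1 (mem_lan.1 hy).2.2
  exact ⟨s, hs, k2 ▸ h.ed_le_of_eq hy hz k1.symm⟩

theorem Tb.avoid_seg (h : Tb g U φ (lan a b) lo hi) (hc : Emb φ (ball 0 (exp b)) U) (hU : IsOpen U)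
    (hs : Hs U) (hγ : Seg g U γ L) (ht : t ∈ Icc 0 L) (hx : x ∈ ball 0 (exp b)) (e : γ t = φ x)
    (n0 : γ 0 ∉ φ '' ball 0 (exp b)) (nL : γ L ∉ φ '' ball 0 (exp b)) (hd : hi * π < 2 * lo * d)
    (h1 : a + 2 * d ≤ b) : exp (b - 2 * d) < ‖x‖ := by
  obtain ⟨k1, k2, k3, k4, k5⟩ := hγ.split ht
  exact h.avoid hc hU hs k1 k2 k3 k4 hx ⟨t, ⟨ht.1, le_rfl⟩, e⟩ ⟨t, ⟨le_rfl, ht.2⟩, e⟩
    (fun k => n0 (k ⟨0, ⟨le_rfl, ht.1⟩, rfl⟩)) (fun k => nL (k ⟨L, ⟨ht.2, le_rfl⟩, rfl⟩)) le_rfl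
    (e ▸ k5) (by rwa [add_zero]) h1

end Vale.Agent.P216SG
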